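import Vale.Agent.P040.Lab.Defs

/-!
# Compatibility with the antipodal map
-/

namespace Vale.Agent.P040.Lab

open Finset

variable {ι : Type*} [Fintype ι] [DecidableEq ι] {v : ι → V3} {k : ℕ}

/-- [E1] -/
theorem tau_tau {x : ι × Finset ι} (hx : x.1 ∉ x.2) : tau (tau x) = x := by
  obtain ⟨c, Q⟩ := x
  simp only [tau] at hx ⊢
  refine Prod.ext rfl ?_
  ext j
  simp only [mem_sdiff, mem_univ, true_and, mem_insert, not_or, not_and, not_not]
  constructor
  · rintro ⟨h1, h2⟩
    exact h2 h1
  · intro hj
    refine ⟨?_, fun _ => hj⟩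
    rintro rfl
    exact hx hj

/-- [E2] replace `n` by `-n` -/
theorem wall_tau (hc : Fintype.card ι = 2 * k + 1) {x : ι × Finset ι} (hx : Wall v k x) :
    Wall v k (tau x) := by
  obtain ⟨hk, n, h0, hnot, hpos, hneg⟩ := hx
  have hd : ∀ w : V3, dot (-n) w = - dot n w := by
    intro w
    unfold dot
    simp only [Prod.fst_neg, Prod.snd_neg]
    ring
  refine ⟨?_, -n, ?_, ?_, ?_, ?_⟩
  · unfold tau
    simp only
    rw [card_sdiff_of_subset (subset_univ _), card_univ, hc, card_insert_of_notMem hnot, hk]
    omega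
  · unfold tau
    simp only
    rw [hd, h0, neg_zero]
  · unfold tau
    simp
  · intro j hj
    unfold tau at hj
    simp only [mem_sdiff, mem_univ, mem_insert, true_and, not_or] at hj
    rw [hd]
    have := hneg j hj.1 hj.2
    linarith
  · intro j hj1 hj2
    unfold tau at hj1 hj2
    simp only at hj1
    simp only [mem_sdiff, mem_univ, mem_insert, true_and, not_not] at hj2
    rw [hd]
    rcases hj2 with h | h
    · exact absurd h hj1
    · have := hpos j h
      linarith

/-- [E3] `posV v y.swap` is the complement of `posV v y` in `univ \ {y.1, y.2}`, so its cardinality is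
`2k - 1 - #posV v y` -/
theorem card_posV_swap (hv : GenPos v) (hc : Fintype.card ι = 2 * k + 1) {y : ι × ι}
    (hy : y.1 ≠ y.2) : (posV v y.swap).card + (posV v y).card + 2 = 2 * k + 1 := by
  classical
  obtain ⟨a, b⟩ := y
  simp only [Prod.swap_prod_mk] at *
  have hsw : ∀ j, det3 (v b) (v a) (v j) = - det3 (v a) (v b) (v j) := by
    intro j; unfold det3 dot crs; ring
  have ha : det3 (v a) (v b) (v a) = 0 := by unfold det3 dot crs; ring
  have hb : det3 (v a) (v b) (v b) = 0 := by unfold det3 dot crs; ring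
  have hU : (univ : Finset ι) = (posV v (b, a) ∪ posV v (a, b)) ∪ {a, b} := by
    ext j
    simp only [posV, mem_univ, mem_union, mem_filter, true_and, mem_insert, mem_singleton, true_iff,
      hsw]
    by_cases hja : j = a
    · exact Or.inr (Or.inl hja)
    by_cases hjb : j = b
    · exact Or.inr (Or.inr hjb)
    have := hv a b j hy (Ne.symm hja) (Ne.symm hjb)
    rcases lt_or_gt_of_ne this with h | h
    · exact Or.inl (Or.inl (by linarith))
    · exact Or.inl (Or.inr h)
  have hd1 : Disjoint (posV v (b, a)) (posV v (a, b)) := by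
    rw [Finset.disjoint_left]
    intro j h1 h2
    simp only [posV, mem_filter, mem_univ, true_and, hsw] at h1 h2
    linarith
  have hd2 : Disjoint (posV v (b, a) ∪ posV v (a, b)) {a, b} := by
    rw [Finset.disjoint_left]
    intro j h1 h2
    simp only [posV, mem_union, mem_filter, mem_univ, true_and, hsw, mem_insert,
      mem_singleton] at h1 h2
    rcases h2 with rfl | rfl
    · rw [ha] at h1; simp at h1
    · rw [hb] at h1; simp at h1
  have h := congrArg card hU
  rw [card_union_of_disjoint hd2, card_union_of_disjoint hd1, card_pair hy, card_univ, hc] at h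
  omega

/-- [E4] -/
theorem levelV_swap (hv : GenPos v) (hc : Fintype.card ι = 2 * k + 1) {y : ι × ι}
    (hy : LevelV v k y) : LevelV v k y.swap := by
  obtain ⟨hne, h⟩ := hy
  have e := card_posV_swap hv hc hne
  refine ⟨?_, ?_⟩
  · simpa using hne.symm
  · rcases h with h | h
    · right
      omega
    · left
      omega

/-- [E5] -/
theorem e1_swap (hv : GenPos v) (hc : Fintype.card ι = 2 * k + 1) {y : ι × ι}
    (hy : LevelV v k y) : e1 v k y.swap = tau (e2 v k y) := by
  obtain ⟨a, b⟩ := y
  obtain ⟨hab, hcard⟩ := hy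
  have hsw := card_posV_swap hv hc (y := (a, b)) hab
  simp only at hab
  have hanti : ∀ j, det3 (v b) (v a) (v j) = - det3 (v a) (v b) (v j) := by
    intro j
    simp only [det3, dot, crs]
    ring
  have h0a : det3 (v a) (v b) (v a) = 0 := by
    simp only [det3, dot, crs]
    ring
  have h0b : det3 (v a) (v b) (v b) = 0 := by
    simp only [det3, dot, crs]
    ring
  have hne : ∀ j, j ≠ a → j ≠ b → det3 (v a) (v b) (v j) ≠ 0 := fun j h1 h2 =>
    hv a b j hab (Ne.symm h1) (Ne.symm h2)
  have hmem : ∀ j, j ∈ posV v (a, b) ↔ 0 < det3 (v a) (v b) (v j) := by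
    intro j
    simp [posV]
  have hmem' : ∀ j, j ∈ posV v (b, a) ↔ det3 (v a) (v b) (v j) < 0 := by
    intro j
    simp only [posV, mem_filter, mem_univ, true_and, hanti]
    constructor <;> intro h <;> linarith
  simp only [Prod.swap_prod_mk] at hsw
  simp only [e1, e2, tau, Prod.swap_prod_mk]
  refine Prod.ext rfl ?_
  simp only
  rcases hcard with h | h
  · have h' : (posV v (b, a)).card ≠ k := by omega
    rw [if_neg h', if_pos h]
    ext j
    simp only [mem_insert, mem_sdiff, mem_univ, true_and, not_or, hmem, hmem']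
    constructor
    · rintro (rfl | hj)
      · exact ⟨hab, by rw [h0a]; exact lt_irrefl _⟩
      · refine ⟨?_, by linarith⟩
        rintro rfl
        rw [h0b] at hj
        exact lt_irrefl _ hj
    · rintro ⟨h1, h2⟩
      by_cases hja : j = a
      · exact Or.inl hja
      · right
        exact lt_of_le_of_ne (not_lt.mp h2) (hne j hja h1)
  · have h' : (posV v (b, a)).card = k := by omega
    have h'' : (posV v (a, b)).card ≠ k := by omega
    rw [if_pos h', if_neg h'']
    ext j
    simp only [mem_insert, mem_sdiff, mem_univ, true_and, not_or, hmem, hmem']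
    constructor
    · intro hj
      refine ⟨?_, ?_, by linarith⟩
      · rintro rfl
        rw [h0b] at hj
        exact lt_irrefl _ hj
      · rintro rfl
        rw [h0a] at hj
        exact lt_irrefl _ hj
    · rintro ⟨h1, h2, h3⟩
      exact lt_of_le_of_ne (not_lt.mp h3) (hne j h2 h1)

private lemma mem_posV_swap25 (hv : GenPos v) {y : ι × ι} (hy : y.1 ≠ y.2) (j : ι) :
    j ∈ posV v y.swap ↔ (j ≠ y.1 ∧ j ≠ y.2 ∧ j ∉ posV v y) := by
  have e : det3 (v y.2) (v y.1) (v j) = - det3 (v y.1) (v y.2) (v j) := by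
    unfold det3 dot crs; ring
  simp only [posV, mem_filter, mem_univ, true_and, Prod.fst_swap, Prod.snd_swap, e, not_lt]
  constructor
  · intro h
    refine ⟨?_, ?_, by linarith⟩
    · intro hj
      rw [hj] at h
      have : det3 (v y.1) (v y.2) (v y.1) = 0 := by unfold det3 dot crs; ring
      linarith
    · intro hj
      rw [hj] at h
      have : det3 (v y.1) (v y.2) (v y.2) = 0 := by unfold det3 dot crs; ring
      linarith
  · rintro ⟨h1, h2, h3⟩
    have := hv y.1 y.2 j hy (Ne.symm h1) (Ne.symm h2)
    have : det3 (v y.1) (v y.2) (v j) < 0 := lt_of_le_of_ne h3 this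
    linarith

private lemma notMem_posV25 {y : ι × ι} : y.1 ∉ posV v y ∧ y.2 ∉ posV v y := by
  have e1 : det3 (v y.1) (v y.2) (v y.1) = 0 := by unfold det3 dot crs; ring
  have e2 : det3 (v y.1) (v y.2) (v y.2) = 0 := by unfold det3 dot crs; ring
  simp [posV, e1, e2]

/-- [E6] -/
theorem e2_swap (hv : GenPos v) (hc : Fintype.card ι = 2 * k + 1) {y : ι × ι}
    (hy : LevelV v k y) : e2 v k y.swap = tau (e1 v k y) := by
  obtain ⟨hne, hcard⟩ := hy
  have hs := card_posV_swap hv hc hne
  have hn := notMem_posV25 (v := v) (y := y)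
  unfold e2 tau e1
  simp only [Prod.fst_swap, Prod.snd_swap]
  refine Prod.ext rfl ?_
  simp only
  rcases hcard with h | h
  · have h' : (posV v y.swap).card ≠ k := by omega
    rw [if_neg h', if_pos h]
    ext j
    simp only [mem_insert, mem_sdiff, mem_univ, true_and, mem_posV_swap25 hv hne j, not_or]
    constructor
    · rintro (rfl | ⟨h1, _, h3⟩)
      · exact ⟨Ne.symm hne, hn.2⟩
      · exact ⟨h1, h3⟩
    · rintro ⟨h1, h3⟩
      by_cases h2 : j = y.2
      · exact Or.inl h2
      · exact Or.inr ⟨h1, h2, h3⟩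
  · have h' : (posV v y.swap).card = k := by omega
    have h'' : (posV v y).card ≠ k := by omega
    rw [if_pos h', if_neg h'']
    ext j
    simp only [mem_insert, mem_sdiff, mem_univ, true_and, mem_posV_swap25 hv hne j, not_or]

/-- [E7] moves commute with the antipode -/
theorem move_tau (hc : Fintype.card ι = 2 * k + 1) {x x' : ι × Finset ι} (h : Move v k x x') :
    Move v k (tau x) (tau x') := by
  obtain ⟨hw, hw', hne, hor⟩ := h
  refine ⟨wall_tau hc hw, wall_tau hc hw', hne, ?_⟩
  obtain ⟨c, Q⟩ := x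
  obtain ⟨c', Q'⟩ := x'
  have hcQ : c ∉ Q := by
    obtain ⟨_, n, hn⟩ := hw
    exact hn.2.1
  have hcQ' : c' ∉ Q' := by
    obtain ⟨_, n, hn⟩ := hw'
    exact hn.2.1
  simp only [tau] at *
  rcases hor with rfl | ⟨hmem, rfl⟩
  · right
    refine ⟨by simp [Ne.symm hne, hcQ'], ?_⟩
    ext j
    simp only [mem_sdiff, mem_univ, true_and, mem_insert, mem_erase, not_or]
    constructor
    · rintro ⟨h1, h2⟩
      by_cases hj : j = c
      · exact Or.inl hj
      · exact Or.inr ⟨h1, hj, h2⟩
    · rintro (rfl | ⟨h1, h2, h3⟩)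
      · exact ⟨hne, hcQ⟩
      · exact ⟨h1, h3⟩
  · left
    ext j
    simp only [mem_sdiff, mem_univ, true_and, mem_insert, mem_erase, not_or, not_and]
    constructor
    · rintro ⟨h1, h2, h3⟩
      exact ⟨h2, h3 h1⟩
    · rintro ⟨h1, h2⟩
      refine ⟨?_, h1, fun _ => h2⟩
      rintro rfl
      exact h2 hmem

end Vale.Agent.P040.Lab
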