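import Vale.Agent.P040.Lab.Main
import Vale.Agent.P040.Sph40.Main

/-!
# The labelling lemma in the form needed for spherical drawings
-/

namespace Vale.Agent.P040.Lab

open Finset

lemma det3_eq (a b c : V3) : det3 a b c = Sph56.det3 a b c := by
  unfold det3 dot crs Sph56.det3
  ring

lemma dot_eq (a b : V3) : dot a b = Sph56.dot a b := rfl

lemma dot_ng (a b : V3) : Sph56.dot (Sph56.ng a) b = - Sph56.dot a b := by
  unfold Sph56.dot Sph56.ng
  ring

lemma lab_eq {k : ℕ} (v : Fin (2 * k + 1) → V3) (σ : Equiv.Perm (Fin (2 * k + 1))) {i : ℕ}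
    (hi : i < 2 * k + 1) : Sph40.lab v σ i = v (σ (Fin.ofNat (2 * k + 1) i)) := by
  unfold Sph40.lab
  rw [dif_pos hi]
  congr 2
  apply Fin.ext
  simp only [Fin.val_ofNat]
  exact (Nat.mod_eq_of_lt hi).symm

/-- every `2k+1` vectors in general position admit a labelling -/
theorem hasLab (k : ℕ) (v : Fin (2 * k + 1) → V3)
    (hgen : ∀ i j l, i ≠ j → i ≠ l → j ≠ l → Sph56.det3 (v i) (v j) (v l) ≠ 0) :
    Sph40.HasLab k v := by
  have hv : GenPos v := by
    intro a b c hab hac hbc
    rw [det3_eq]
    exact hgen a b c hab hac hbc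
  obtain ⟨σ, n, hL⟩ := exists_lab k v hv
  refine ⟨σ, fun i => if i ≤ k then n i else Sph56.ng (n i), ?_⟩
  constructor
  · intro i hi
    rw [lab_eq v σ hi]
    have := hL.on i hi
    rw [dot_eq] at this
    by_cases h : i ≤ k
    · simp only [h, if_true]; exact this
    · simp only [h, if_false]; rw [dot_ng, this]; simp
  · intro i hi j hj hij
    rw [lab_eq v σ hj]
    have := hL.off i hi j hj (Ne.symm hij)
    rw [dot_eq] at this
    by_cases h : i ≤ k
    · simp only [h, if_true]; exact this
    · simp only [h, if_false]; rw [dot_ng]; exact neg_ne_zero.mpr this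
  · intro i hi j hj
    rw [lab_eq v σ (by omega)]
    simp only [hi, if_true]
    exact hL.lowS i hi j hj
  · intro i hki hi j hij hj
    rw [lab_eq v σ hj]
    have h : ¬ i ≤ k := by omega
    simp only [h, if_false]
    rw [dot_ng]
    have := hL.upS i (by omega) j hij hj
    rw [dot_eq] at this
    linarith
  · intro i hi
    by_cases h : i ≤ k
    · simp only [h, if_true]
      refine le_trans (le_of_eq ?_) (hL.lowC i h)
      congr 1
      apply filter_congr
      intro j hj
      rw [lab_eq v σ (mem_range.1 hj)]
      rfl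
    · simp only [h, if_false]
      refine le_trans (le_of_eq ?_) (hL.upC i (by omega) hi)
      congr 1
      apply filter_congr
      intro j hj
      rw [lab_eq v σ (mem_range.1 hj), dot_ng, dot_eq]
      constructor <;> intro h' <;> linarith

end Vale.Agent.P040.Lab
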