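import Vale.Agent.P040.Lab.Anti

/-!
# A chain of moves from a wall to its antipode gives the labelling
-/

namespace Vale.Agent.P040.Lab

open Finset

/-- [A1] induction on the chain -/
theorem exists_step {α : Type*} (R : α → α → Prop) (P : α → Prop) {a b : α}
    (h : Relation.ReflTransGen R a b) (ha : P a) (hb : ¬ P b) : ∃ c d, R c d ∧ P c ∧ ¬ P d := by
  induction h with
  | refl => exact absurd ha hb
  | tail hac hcb ih =>
    rename_i c d
    by_cases hc : P c
    · exact ⟨c, d, hcb, hc, hb⟩
    · exact ih hc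

variable {ι : Type*} [Fintype ι] [DecidableEq ι] {v : ι → V3} {k : ℕ}

open Classical in
/-- `n` is the normal of a great circle through `v a` only, with `T` on its positive side, which
contains at most `k` vectors -/
def Good (v : ι → V3) (k : ℕ) (T : Finset ι) (a : ι) (n : V3) : Prop :=
  dot n (v a) = 0 ∧ (∀ j, j ≠ a → dot n (v j) ≠ 0) ∧ (∀ j ∈ T, 0 < dot n (v j)) ∧
    (univ.filter fun j => 0 < dot n (v j)).card ≤ k

/-- [A2] Apply `exists_step` with `P z := S ⊆ z.2`: `P x` holds, `P (tau x)` fails.  At the step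
`c → d` the move is of the second kind with `d.1 ∈ S`; `a = d.1`, `n` = a normal of the wall `d`,
whose positive side is `d.2 ⊇ S.erase a`, `#d.2 = k`. -/
theorem rem_of_chain {x : ι × Finset ι} (h : Relation.ReflTransGen (Move v k) x (tau x))
    {S : Finset ι} (hS : S ⊆ x.2) (hne : S.Nonempty) : ∃ a ∈ S, ∃ n, Good v k (S.erase a) a n := by
  classical
  have hb : ¬ (S ⊆ (tau x).2) := by
    intro hsub
    obtain ⟨s, hs⟩ := hne
    have h1 := hsub hs
    simp only [tau, mem_sdiff, mem_univ, true_and, mem_insert, not_or] at h1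
    exact h1.2 (hS hs)
  obtain ⟨c, d, hm, hc, hd⟩ := exists_step (Move v k) (fun z => S ⊆ z.2) h hS hb
  obtain ⟨_, hwd, _, hor⟩ := hm
  rcases hor with heq | ⟨hmem, heq⟩
  · exact absurd (heq ▸ hc) hd
  obtain ⟨hcard, n, hn0, hn1, hn2, hn3⟩ := hwd
  have hdS : d.1 ∈ S := by
    by_contra hcon
    apply hd
    intro s hs
    rw [heq, mem_insert, mem_erase]
    refine Or.inr ⟨?_, hc hs⟩
    rintro rfl
    exact hcon hs
  refine ⟨d.1, hdS, n, hn0, ?_, ?_, ?_⟩
  · intro j hj
    by_cases hjd : j ∈ d.2
    · exact (hn2 j hjd).ne'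
    · exact (hn3 j hj hjd).ne
  · intro j hj
    rw [mem_erase] at hj
    apply hn2
    rw [heq, mem_insert, mem_erase]
    exact Or.inr ⟨hj.1, hc hj.2⟩
  · rw [← hcard]
    apply card_le_card
    intro j hj
    rw [mem_filter] at hj
    by_contra hjd
    by_cases hj1 : j = d.1
    · rw [hj1, hn0] at hj
      exact lt_irrefl _ hj.2
    · exact lt_asymm hj.2 (hn3 j hj1 hjd)

private lemma good_mono {T T' : Finset ι} {a : ι} {n : V3} (hT : T' ⊆ T) (h : Good v k T a n) :
    Good v k T' a n :=
  ⟨h.1, h.2.1, fun j hj => h.2.2.1 j (hT hj), h.2.2.2⟩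

private lemma peel_aux [Nonempty ι] (m : ℕ) : ∀ (A : Finset ι), A.card = m →
    (∀ S ⊆ A, S.Nonempty → ∃ a ∈ S, ∃ n, Good v k (S.erase a) a n) →
    ∃ (g : ℕ → ι) (n : ℕ → V3), (∀ i < m, g i ∈ A) ∧
      (∀ i < m, ∀ j < m, g i = g j → i = j) ∧
      ∀ i < m, Good v k ((range i).image g) (g i) (n i) := by
  induction m with
  | zero =>
    intro A _ _
    refine ⟨fun _ => Classical.arbitrary ι, fun _ => (0, 0, 0), ?_, ?_, ?_⟩
    · intro i hi
      exact absurd hi (Nat.not_lt_zero i)
    · intro i hi
      exact absurd hi (Nat.not_lt_zero i)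
    · intro i hi
      exact absurd hi (Nat.not_lt_zero i)
  | succ m ih =>
    intro A hA h
    have hne : A.Nonempty := by
      rw [← card_pos]
      omega
    obtain ⟨a, haA, n0, hn0⟩ := h A (Subset.refl A) hne
    have hcard : (A.erase a).card = m := by
      rw [card_erase_of_mem haA]
      omega
    obtain ⟨g', n', h1, h2, h3⟩ := ih (A.erase a) hcard
      (fun S hS hSne => h S (hS.trans (erase_subset a A)) hSne)
    refine ⟨fun i => if i < m then g' i else a, fun i => if i < m then n' i else n0, ?_, ?_, ?_⟩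
    · intro i _
      by_cases him : i < m
      · simp only [him, if_true]
        exact mem_of_mem_erase (h1 i him)
      · simp only [him, if_false]
        exact haA
    · intro i hi j hj hij
      by_cases him : i < m
      · by_cases hjm : j < m
        · simp only [him, hjm, if_true] at hij
          exact h2 i him j hjm hij
        · simp only [him, hjm, if_true, if_false] at hij
          exact absurd hij (ne_of_mem_erase (h1 i him))
      · by_cases hjm : j < m
        · simp only [him, hjm, if_true, if_false] at hij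
          exact absurd hij.symm (ne_of_mem_erase (h1 j hjm))
        · omega
    · intro i hi
      by_cases him : i < m
      · have himg : (range i).image (fun i => if i < m then g' i else a) = (range i).image g' := by
          apply image_congr
          intro j hj
          have hj' : j < i := mem_range.1 (mem_coe.1 hj)
          have hjm : j < m := lt_trans hj' him
          simp only [hjm, if_true]
        rw [himg]
        simp only [him, if_true]
        exact h3 i him
      · simp only [him, if_false]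
        apply good_mono _ hn0
        intro y hy
        obtain ⟨j, hj, rfl⟩ := mem_image.1 hy
        have hj' : j < i := mem_range.1 hj
        have hjm : j < m := by omega
        simp only [hjm, if_true]
        exact h1 j hjm

/-- [A3] peeling: induction on `#A` (remove `a` from `A`, enumerate `A.erase a` by `g'`, put
`g i = g' i` for `i < #A - 1` and `g (#A - 1) = a`) -/
theorem peel [Nonempty ι] (A : Finset ι)
    (h : ∀ S ⊆ A, S.Nonempty → ∃ a ∈ S, ∃ n, Good v k (S.erase a) a n) :
    ∃ (g : ℕ → ι) (n : ℕ → V3), (∀ i < A.card, g i ∈ A) ∧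
      (∀ i < A.card, ∀ j < A.card, g i = g j → i = j) ∧
      ∀ i < A.card, Good v k ((range i).image g) (g i) (n i) :=
  peel_aux A.card A rfl h

/-- [A4] `Relation.ReflTransGen.lift tau` with `move_tau` -/
theorem chain_tau (hc : Fintype.card ι = 2 * k + 1) {x x' : ι × Finset ι}
    (h : Relation.ReflTransGen (Move v k) x x') :
    Relation.ReflTransGen (Move v k) (tau x) (tau x') := by
  exact Relation.ReflTransGen.lift tau (fun _ _ hab => move_tau hc hab) _ _ h

/-- [A5a] -/
theorem exists_perm (m : ℕ) [NeZero m] (f : ℕ → Fin m)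
    (hinj : ∀ i < m, ∀ j < m, f i = f j → i = j) :
    ∃ σ : Equiv.Perm (Fin m), ∀ i < m, σ (Fin.ofNat m i) = f i := by
  have hinj' : Function.Injective (fun i : Fin m => f i.val) := by
    intro a b hab
    exact Fin.ext (hinj a.val a.isLt b.val b.isLt hab)
  have hbij : Function.Bijective (fun i : Fin m => f i.val) :=
    (Finite.injective_iff_bijective).mp hinj'
  refine ⟨Equiv.ofBijective _ hbij, ?_⟩
  intro i hi
  rw [Equiv.ofBijective_apply]
  have : (Fin.ofNat m i).val = i := by
    simp [Fin.ofNat, Nat.mod_eq_of_lt hi]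
  simp only [this]

open Classical in
/-- [A5b] -/
theorem card_filter_perm (m : ℕ) [NeZero m] (σ : Equiv.Perm (Fin m)) (P : Fin m → Prop) :
    ((range m).filter fun j => P (σ (Fin.ofNat m j))).card = (univ.filter P).card := by
  apply Finset.card_bij (fun j _ => σ (Fin.ofNat m j))
  · intro j hj
    rw [mem_filter] at hj ⊢
    exact ⟨mem_univ _, hj.2⟩
  · intro a ha b hb h
    rw [mem_filter, mem_range] at ha hb
    have h1 : Fin.ofNat m a = Fin.ofNat m b := σ.injective h
    have h2 := congrArg Fin.val h1
    rw [Fin.val_ofNat, Fin.val_ofNat, Nat.mod_eq_of_lt ha.1, Nat.mod_eq_of_lt hb.1] at h2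
    exact h2
  · intro b hb
    rw [mem_filter] at hb
    have h3 : Fin.ofNat m (σ.symm b).1 = σ.symm b := by
      apply Fin.ext
      rw [Fin.val_ofNat, Nat.mod_eq_of_lt (σ.symm b).2]
    refine ⟨(σ.symm b).1, ?_, ?_⟩
    · rw [mem_filter, mem_range, h3, Equiv.apply_symm_apply]
      exact ⟨(σ.symm b).2, hb.2⟩
    · show σ (Fin.ofNat m (σ.symm b).1) = b
      rw [h3, Equiv.apply_symm_apply]

/-- [A5c] the labelling from the two enumerations: labels `i < k` are `gA i`, label `k` is the pivot
`c`, labels `k < i ≤ 2k` are `gB (2k - i)`; normals `nA i`, `n₀`, `- nB (2k - i)`.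
(`neg3 n = (-n.1, -n.2.1, -n.2.2)`; `dot (-n) x = - dot n x`.) -/
theorem lab_of_enum (k : ℕ) (v : Fin (2 * k + 1) → V3) (c : Fin (2 * k + 1))
    (A B : Finset (Fin (2 * k + 1))) (hA : A.card = k) (hB : B.card = k) (hAB : Disjoint A B)
    (hcA : c ∉ A) (hcB : c ∉ B) (n₀ : V3) (h₀ : IsWall v c A n₀)
    (gA gB : ℕ → Fin (2 * k + 1)) (nA nB : ℕ → V3)
    (hA1 : ∀ i < k, gA i ∈ A) (hA2 : ∀ i < k, ∀ j < k, gA i = gA j → i = j)
    (hA3 : ∀ i < k, Good v k ((range i).image gA) (gA i) (nA i))
    (hB1 : ∀ i < k, gB i ∈ B) (hB2 : ∀ i < k, ∀ j < k, gB i = gB j → i = j)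
    (hB3 : ∀ i < k, Good v k ((range i).image gB) (gB i) (nB i)) :
    ∃ (σ : Equiv.Perm (Fin (2 * k + 1))) (n : ℕ → V3),
      IsLab k (fun i => v (σ (Fin.ofNat (2 * k + 1) i))) n := by
  classical
  have hdotneg : ∀ a x : V3, dot (-a.1, -a.2.1, -a.2.2) x = - dot a x := by
    intro a x
    unfold dot
    ring
  set f : ℕ → Fin (2 * k + 1) :=
    fun i => if i < k then gA i else if i = k then c else gB (2 * k - i) with hf
  set n : ℕ → V3 :=
    fun i => if i < k then nA i else if i = k then n₀
      else (-(nB (2 * k - i)).1, -(nB (2 * k - i)).2.1, -(nB (2 * k - i)).2.2) with hn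
  have fA : ∀ i, i < k → f i = gA i := by
    intro i hi
    simp only [hf, if_pos hi]
  have fc : f k = c := by
    simp only [hf, lt_irrefl, if_false, if_true]
  have fB : ∀ i, k < i → f i = gB (2 * k - i) := by
    intro i hi
    have h1 : ¬ i < k := by omega
    have h2 : ¬ i = k := by omega
    simp only [hf, if_neg h1, if_neg h2]
  have nA' : ∀ i, i < k → n i = nA i := by
    intro i hi
    simp only [hn, if_pos hi]
  have nc : n k = n₀ := by
    simp only [hn, lt_irrefl, if_false, if_true]
  have nB' : ∀ i, k < i →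
      n i = (-(nB (2 * k - i)).1, -(nB (2 * k - i)).2.1, -(nB (2 * k - i)).2.2) := by
    intro i hi
    have h1 : ¬ i < k := by omega
    have h2 : ¬ i = k := by omega
    simp only [hn, if_neg h1, if_neg h2]
  have hABne : ∀ a ∈ A, ∀ b ∈ B, a ≠ b := by
    intro a ha b hb hab
    exact (Finset.disjoint_left.mp hAB ha) (hab ▸ hb)
  have hinj : ∀ i < 2 * k + 1, ∀ j < 2 * k + 1, f i = f j → i = j := by
    intro i hi j hj hij
    rcases lt_trichotomy i k with h1 | h1 | h1 <;> rcases lt_trichotomy j k with h2 | h2 | h2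
    · rw [fA i h1, fA j h2] at hij
      exact hA2 i h1 j h2 hij
    · subst h2
      rw [fA i h1, fc] at hij
      exact absurd (hij ▸ hA1 i h1) hcA
    · rw [fA i h1, fB j h2] at hij
      exact absurd hij (hABne _ (hA1 i h1) _ (hB1 _ (by omega)))
    · subst h1
      rw [fA j h2, fc] at hij
      exact absurd (hij ▸ hA1 j h2) hcA
    · omega
    · subst h1
      rw [fB j h2, fc] at hij
      exact absurd (hij ▸ hB1 _ (by omega)) hcB
    · rw [fB i h1, fA j h2] at hij
      exact absurd hij.symm (hABne _ (hA1 j h2) _ (hB1 _ (by omega)))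
    · subst h2
      rw [fB i h1, fc] at hij
      exact absurd (hij ▸ hB1 _ (by omega)) hcB
    · rw [fB i h1, fB j h2] at hij
      have := hB2 _ (by omega) _ (by omega) hij
      omega
  obtain ⟨σ, hσ⟩ := exists_perm (2 * k + 1) f hinj
  obtain ⟨h01, -, h03, h04⟩ := h₀
  have hcardpos : ∀ a : V3, ((range (2 * k + 1)).filter
      fun j => 0 < dot a (v (σ (Fin.ofNat (2 * k + 1) j)))).card
      = (univ.filter fun q => 0 < dot a (v q)).card := by
    intro a
    have := card_filter_perm (2 * k + 1) σ (fun q => 0 < dot a (v q))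
    convert this
  have hcardneg : ∀ a : V3, ((range (2 * k + 1)).filter
      fun j => dot a (v (σ (Fin.ofNat (2 * k + 1) j))) < 0).card
      = (univ.filter fun q => dot a (v q) < 0).card := by
    intro a
    have := card_filter_perm (2 * k + 1) σ (fun q => dot a (v q) < 0)
    convert this
  refine ⟨σ, n, ?_, ?_, ?_, ?_, ?_, ?_⟩
  · -- on
    intro i hi
    rw [hσ i hi]
    rcases lt_trichotomy i k with h1 | h1 | h1
    · rw [fA i h1, nA' i h1]
      exact (hA3 i h1).1
    · subst h1
      rw [fc, nc]
      exact h01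
    · rw [fB i h1, nB' i h1, hdotneg, (hB3 _ (by omega)).1, neg_zero]
  · -- off
    intro i hi j hj hji
    rw [hσ j hj]
    have hne : f j ≠ f i := fun h => hji (hinj j hj i hi h)
    rcases lt_trichotomy i k with h1 | h1 | h1
    · rw [nA' i h1]
      rw [fA i h1] at hne
      exact (hA3 i h1).2.1 _ hne
    · subst h1
      rw [nc]
      rw [fc] at hne
      by_cases hq : f j ∈ A
      · exact (h03 _ hq).ne'
      · exact (h04 _ hne hq).ne
    · rw [nB' i h1, hdotneg]
      rw [fB i h1] at hne
      exact neg_ne_zero.mpr ((hB3 _ (by omega)).2.1 _ hne)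
  · -- lowS
    intro i hi j hj
    rw [hσ j (by omega), fA j (by omega)]
    rcases hi.lt_or_eq with h1 | h1
    · rw [nA' i h1]
      exact (hA3 i h1).2.2.1 _ (mem_image.mpr ⟨j, mem_range.mpr hj, rfl⟩)
    · subst h1
      rw [nc]
      exact h03 _ (hA1 j hj)
  · -- lowC
    intro i hi
    rw [hcardpos]
    rcases hi.lt_or_eq with h1 | h1
    · rw [nA' i h1]
      convert (hA3 i h1).2.2.2
    · subst h1
      rw [nc]
      refine le_trans (card_le_card (t := A) ?_) hA.le
      intro q hq
      rw [mem_filter] at hq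
      by_contra hqA
      by_cases hqc : q = c
      · rw [hqc, h01] at hq
        exact lt_irrefl _ hq.2
      · exact absurd (h04 q hqc hqA) (not_lt.mpr hq.2.le)
  · -- upS
    intro i hi j hij hj
    rw [hσ j hj, fB j (by omega)]
    rcases hi.lt_or_eq with h1 | h1
    · rw [nB' i h1, hdotneg]
      have := (hB3 (2 * k - i) (by omega)).2.2.1 (gB (2 * k - j))
        (mem_image.mpr ⟨2 * k - j, mem_range.mpr (by omega), rfl⟩)
      linarith
    · subst h1
      rw [nc]
      have hb := hB1 (2 * k - j) (by omega)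
      refine h04 _ (fun h => hcB (h ▸ hb)) (fun h => hABne _ h _ hb rfl)
  · -- upC
    intro i hi hi2
    rw [hcardneg]
    rcases hi.lt_or_eq with h1 | h1
    · rw [nB' i h1]
      have h2 := (hB3 (2 * k - i) (by omega)).2.2.2
      refine le_trans (le_of_eq ?_) h2
      congr 1
      ext q
      simp only [mem_filter, mem_univ, true_and]
      rw [hdotneg]
      constructor <;> intro h <;> linarith
    · subst h1
      rw [nc]
      have h2 : (univ.filter fun q => dot n₀ (v q) < 0) ⊆ (insert c A)ᶜ := by
        intro q hq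
        rw [mem_filter] at hq
        rw [mem_compl, mem_insert, not_or]
        constructor
        · intro hqc
          rw [hqc, h01] at hq
          exact lt_irrefl _ hq.2
        · intro hqA
          exact absurd (h03 q hqA) (not_lt.mpr hq.2.le)
      refine le_trans (card_le_card h2) ?_
      rw [card_compl, card_insert_of_notMem hcA, hA, Fintype.card_fin]
      omega

/-- [A6] STEP 1: a chain of moves from a wall to its antipode gives the labelling
(A2 + A3 for `x` and, by A4 and `tau_tau`, for `tau x`; then A5c with `A = x.2`, `B = (tau x).2`) -/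
theorem lab_of_chain (k : ℕ) (v : Fin (2 * k + 1) → V3)
    (x : Fin (2 * k + 1) × Finset (Fin (2 * k + 1))) (hx : Wall v k x)
    (h : Relation.ReflTransGen (Move v k) x (tau x)) :
    ∃ (σ : Equiv.Perm (Fin (2 * k + 1))) (n : ℕ → V3),
      IsLab k (fun i => v (σ (Fin.ofNat (2 * k + 1) i))) n := by
  have hc : Fintype.card (Fin (2 * k + 1)) = 2 * k + 1 := Fintype.card_fin _
  have hkB : (tau x).2.card = k := (wall_tau hc hx).1
  obtain ⟨hk, n₀, hn₀⟩ := hx
  have hxn : x.1 ∉ x.2 := hn₀.2.1
  have h' : Relation.ReflTransGen (Move v k) (tau x) (tau (tau x)) := chain_tau hc h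
  obtain ⟨gA, nA, hA1, hA2, hA3⟩ :=
    peel (v := v) (k := k) x.2 (fun S hS hne => rem_of_chain h hS hne)
  obtain ⟨gB, nB, hB1, hB2, hB3⟩ :=
    peel (v := v) (k := k) (tau x).2 (fun S hS hne => rem_of_chain h' hS hne)
  rw [hk] at hA1 hA2 hA3
  rw [hkB] at hB1 hB2 hB3
  have hdisj : Disjoint x.2 (tau x).2 := by
    rw [Finset.disjoint_left]
    intro j hj hj'
    unfold tau at hj'
    simp only [mem_sdiff, mem_univ, true_and, mem_insert, not_or] at hj'
    exact hj'.2 hj
  have hcB : x.1 ∉ (tau x).2 := by
    unfold tau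
    simp
  exact lab_of_enum k v x.1 x.2 (tau x).2 hk hkB hdisj hxn hcB n₀ hn₀ gA gB nA nB
    hA1 hA2 hA3 hB1 hB2 hB3

end Vale.Agent.P040.Lab
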