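import Vale.Agent.P040.Lab.Odd

/-!
# The number of walls on the pencil of `p` is `2 mod 4`
-/

namespace Vale.Agent.P040.Lab

open Finset

variable {ι : Type*} [Fintype ι] [DecidableEq ι] {v : ι → V3} {k : ℕ}

/-- [H0] unfold; `ring` -/
theorem dot_crs (p a b : V3) : dot (crs p a) b = det3 p a b := by
  unfold det3 dot crs
  ring

/-- [H1] `posP`, `negP` and `{c}` partition `univ` -/
theorem card_posP_add (hc : Fintype.card ι = 2 * k + 1) {p : V3} (hp : GenP v p) (c : ι) :
    (posP v p c).card + (negP v p c).card = 2 * k := by
  classical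
  have hzero : det3 p (v c) (v c) = 0 := by
    unfold det3 dot crs
    ring
  have h1 : posP v p c ∪ negP v p c = univ.erase c := by
    ext u
    simp only [posP, negP, mem_union, mem_filter, mem_univ, true_and, mem_erase, and_true]
    constructor
    · intro h hu
      subst hu
      rw [hzero] at h
      rcases h with h | h <;> exact lt_irrefl _ h
    · intro hu
      have := hp c u (Ne.symm hu)
      rcases lt_or_gt_of_ne this with h | h
      · exact Or.inr h
      · exact Or.inl h
  have hd : Disjoint (posP v p c) (negP v p c) := by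
    rw [Finset.disjoint_left]
    intro u h1 h2
    simp only [posP, negP, mem_filter, mem_univ, true_and] at h1 h2
    exact lt_asymm h1 h2
  rw [← Finset.card_union_of_disjoint hd, h1, Finset.card_erase_of_mem (mem_univ c),
    Finset.card_univ, hc]
  simp

/-- [H2] normal `crs p (v c)` -/
theorem isWall_posP {p : V3} (hp : GenP v p) (c : ι) :
    IsWall v c (posP v p c) (crs p (v c)) := by
  classical
  have hd : ∀ j, dot (crs p (v c)) (v j) = det3 p (v c) (v j) := fun j => dot_crs p (v c) (v j)
  have h0 : det3 p (v c) (v c) = 0 := by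
    unfold det3 dot crs
    ring
  refine ⟨by rw [hd, h0], ?_, ?_, ?_⟩
  · intro hm
    have h1 : 0 < det3 p (v c) (v c) := by simpa [posP] using hm
    rw [h0] at h1
    exact lt_irrefl _ h1
  · intro j hj
    rw [hd]
    simpa [posP] using hj
  · intro j hjc hj
    rw [hd]
    have h1 : ¬ 0 < det3 p (v c) (v j) := by simpa [posP] using hj
    exact lt_of_le_of_ne (not_lt.mp h1) (hp c j hjc.symm)

/-- [H2'] normal `crs (v c) p` -/
theorem isWall_negP {p : V3} (hp : GenP v p) (c : ι) :
    IsWall v c (negP v p c) (crs (v c) p) := by
  classical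
  have hd : ∀ j, dot (crs (v c) p) (v j) = - det3 p (v c) (v j) := by
    intro j
    unfold det3 dot crs
    ring
  have h0 : det3 p (v c) (v c) = 0 := by
    unfold det3 dot crs
    ring
  refine ⟨by rw [hd, h0, neg_zero], ?_, ?_, ?_⟩
  · intro hm
    have h1 : det3 p (v c) (v c) < 0 := by simpa [negP] using hm
    rw [h0] at h1
    exact lt_irrefl _ h1
  · intro j hj
    rw [hd]
    have h1 : det3 p (v c) (v j) < 0 := by simpa [negP] using hj
    linarith
  · intro j hjc hj
    rw [hd]
    have h1 : ¬ det3 p (v c) (v j) < 0 := by simpa [negP] using hj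
    have h2 : 0 < det3 p (v c) (v j) := lt_of_le_of_ne (not_lt.mp h1) (hp c j hjc.symm).symm
    linarith

open Classical in
/-- [H3] the walls on the pencil are `(c, posP c)` and `(c, negP c)` for the `c` with `#posP c = k`;
the two are different since `k ≥ 1` -/
theorem card_pencil (hc : Fintype.card ι = 2 * k + 1) (hk : 1 ≤ k) {p : V3} (hp : GenP v p) :
    ((univ : Finset (ι × Finset ι)).filter fun x =>
      Wall v k x ∧ (x.2 = posP v p x.1 ∨ x.2 = negP v p x.1)).card =
      2 * (univ.filter fun c => (posP v p c).card = k).card := by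
  have key : ∀ (S : Finset (ι × Finset ι)) (H : Finset ι),
      (∀ x, x ∈ S ↔ (Wall v k x ∧ (x.2 = posP v p x.1 ∨ x.2 = negP v p x.1))) →
      (∀ c, c ∈ H ↔ (posP v p c).card = k) → S.card = 2 * H.card := by
    intro S H hS hH
    have hset : S = H.image (fun c => (c, posP v p c)) ∪ H.image (fun c => (c, negP v p c)) := by
      ext ⟨c, Q⟩
      rw [hS]
      simp only [mem_union, mem_image, Prod.mk.injEq]
      constructor
      · rintro ⟨⟨hcard, _⟩, h | h⟩
        · left
          refine ⟨c, (hH c).mpr ?_, rfl, h.symm⟩
          rw [← h]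
          exact hcard
        · right
          refine ⟨c, (hH c).mpr ?_, rfl, h.symm⟩
          have h1 := card_posP_add hc hp c
          have h2 : (negP v p c).card = k := by
            rw [← h]
            exact hcard
          omega
      · rintro (⟨c', hc', rfl, rfl⟩ | ⟨c', hc', rfl, rfl⟩)
        · exact ⟨⟨(hH c').mp hc', _, isWall_posP hp c'⟩, Or.inl rfl⟩
        · refine ⟨⟨?_, _, isWall_negP hp c'⟩, Or.inr rfl⟩
          have h1 := card_posP_add hc hp c'
          have h2 := (hH c').mp hc'
          show (negP v p c').card = k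
          omega
    have hdisj : Disjoint (H.image (fun c => (c, posP v p c)))
        (H.image (fun c => (c, negP v p c))) := by
      rw [Finset.disjoint_left]
      intro x hx hx'
      obtain ⟨c, hcH, rfl⟩ := mem_image.mp hx
      obtain ⟨c', _, h⟩ := mem_image.mp hx'
      simp only [Prod.mk.injEq] at h
      obtain ⟨rfl, h⟩ := h
      have h2 := (hH c').mp hcH
      have hne : (posP v p c').Nonempty := by
        rw [← Finset.card_pos]
        omega
      obtain ⟨j, hj⟩ := hne
      have hj' : j ∈ negP v p c' := by
        rw [h]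
        exact hj
      have a1 : 0 < det3 p (v c') (v j) := by simpa [posP] using hj
      have a2 : det3 p (v c') (v j) < 0 := by simpa [negP] using hj'
      exact lt_asymm a1 a2
    rw [hset, card_union_of_disjoint hdisj,
      card_image_of_injective _ (fun a b h => (Prod.mk.inj h).1),
      card_image_of_injective _ (fun a b h => (Prod.mk.inj h).1)]
    ring
  apply key
  · intro x
    simp only [mem_filter, mem_univ, true_and]
  · intro c
    simp only [mem_filter, mem_univ, true_and]

open Classical in
/-- [H4] from H3 and `odd_halving` -/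
theorem card_pencil_mod (hc : Fintype.card ι = 2 * k + 1) (hk : 1 ≤ k) {p : V3} (hp : GenP v p) :
    ((univ : Finset (ι × Finset ι)).filter fun x =>
      Wall v k x ∧ (x.2 = posP v p x.1 ∨ x.2 = negP v p x.1)).card % 4 = 2 := by
  obtain ⟨m, hm⟩ := odd_halving hc hk hp
  rw [card_pencil hc hk hp, hm]
  omega

end Vale.Agent.P040.Lab
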