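import Mathlib

/-!
# The labelling lemma for `2k+1` vectors of `ℝ³` (spherical Zarankiewicz): definitions

Dual picture: a normal `n` is a great circle, `pos n` = the vectors with positive scalar product.
A *wall* `(c, Q)` is a halving great circle through `v c` only, with positive side `Q`, `|Q| = k`.
A *level vertex* `(a, b)` is the normal `v a × v b` with `k - 1` or `k` positive vectors.
-/

namespace Vale.Agent.P040.Lab

open Finset

/-- vectors of three-space -/
abbrev V3 := ℝ × ℝ × ℝ

/-- scalar product -/
def dot (a b : V3) : ℝ := a.1 * b.1 + a.2.1 * b.2.1 + a.2.2 * b.2.2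

/-- vector product -/
def crs (a b : V3) : V3 :=
  (a.2.1 * b.2.2 - a.2.2 * b.2.1, a.2.2 * b.1 - a.1 * b.2.2, a.1 * b.2.1 - a.2.1 * b.1)

/-- determinant -/
def det3 (a b c : V3) : ℝ := dot a (crs b c)

/-- Labelling data: `r 0, …, r (2k)` the vectors in the order of their labels, `n i` the normal of
the great circle of the row `i`: it passes through `r i` only; for `i ≤ k` all smaller labels are on
its positive side, which contains at most `k` vectors; for `i ≥ k` all larger labels are on its
negative side, which contains at most `k` vectors. -/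
structure IsLab (k : ℕ) (r n : ℕ → V3) : Prop where
  on : ∀ i < 2 * k + 1, dot (n i) (r i) = 0
  off : ∀ i < 2 * k + 1, ∀ j < 2 * k + 1, j ≠ i → dot (n i) (r j) ≠ 0
  lowS : ∀ i ≤ k, ∀ j < i, 0 < dot (n i) (r j)
  lowC : ∀ i ≤ k, ((range (2 * k + 1)).filter fun j => 0 < dot (n i) (r j)).card ≤ k
  upS : ∀ i, k ≤ i → ∀ j, i < j → j < 2 * k + 1 → dot (n i) (r j) < 0
  upC : ∀ i, k ≤ i → i < 2 * k + 1 →
    ((range (2 * k + 1)).filter fun j => dot (n i) (r j) < 0).card ≤ k

variable {ι : Type*} [Fintype ι] [DecidableEq ι]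

/-- any three of the vectors are linearly independent -/
def GenPos (v : ι → V3) : Prop :=
  ∀ a b c, a ≠ b → a ≠ c → b ≠ c → det3 (v a) (v b) (v c) ≠ 0

/-- `n` is the normal of a great circle through `v c` only, with positive side `Q` -/
def IsWall (v : ι → V3) (c : ι) (Q : Finset ι) (n : V3) : Prop :=
  dot n (v c) = 0 ∧ c ∉ Q ∧ (∀ j ∈ Q, 0 < dot n (v j)) ∧ ∀ j, j ≠ c → j ∉ Q → dot n (v j) < 0

/-- a halving great circle through `v x.1` with positive side `x.2` -/
def Wall (v : ι → V3) (k : ℕ) (x : ι × Finset ι) : Prop :=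
  x.2.card = k ∧ ∃ n, IsWall v x.1 x.2 n

/-- the antipodal wall -/
def tau (x : ι × Finset ι) : ι × Finset ι := (x.1, univ \ insert x.1 x.2)

/-- elementary move: the pivot changes, a vector changes side only by becoming the pivot -/
def Move (v : ι → V3) (k : ℕ) (x x' : ι × Finset ι) : Prop :=
  Wall v k x ∧ Wall v k x' ∧ x.1 ≠ x'.1 ∧
    (x'.2 = x.2 ∨ (x'.1 ∈ x.2 ∧ x'.2 = insert x.1 (x.2.erase x'.1)))

open Classical in
/-- the vectors on the positive side of the normal `v y.1 × v y.2` -/
noncomputable def posV (v : ι → V3) (y : ι × ι) : Finset ι :=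
  univ.filter fun j => 0 < det3 (v y.1) (v y.2) (v j)

/-- level vertex -/
def LevelV (v : ι → V3) (k : ℕ) (y : ι × ι) : Prop :=
  y.1 ≠ y.2 ∧ ((posV v y).card = k ∨ (posV v y).card + 1 = k)

/-- the wall at the level vertex `y` with pivot `y.1` -/
noncomputable def e1 (v : ι → V3) (k : ℕ) (y : ι × ι) : ι × Finset ι :=
  (y.1, if (posV v y).card = k then posV v y else insert y.2 (posV v y))

/-- the wall at the level vertex `y` with pivot `y.2` -/
noncomputable def e2 (v : ι → V3) (k : ℕ) (y : ι × ι) : ι × Finset ι :=
  (y.2, if (posV v y).card = k then posV v y else insert y.1 (posV v y))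

/-- `p` lies on no plane spanned by two of the vectors -/
def GenP (v : ι → V3) (p : V3) : Prop := ∀ a b, a ≠ b → det3 p (v a) (v b) ≠ 0

open Classical in
/-- the positive side of the great circle through `p` and `v c` -/
noncomputable def posP (v : ι → V3) (p : V3) (c : ι) : Finset ι :=
  univ.filter fun u => 0 < det3 p (v c) (v u)

open Classical in
/-- the negative side of the great circle through `p` and `v c` -/
noncomputable def negP (v : ι → V3) (p : V3) (c : ι) : Finset ι :=
  univ.filter fun u => det3 p (v c) (v u) < 0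

open Classical in
/-- the end vertices of the wall `x` -/
noncomputable def ends (v : ι → V3) (k : ℕ) (x : ι × Finset ι) : Finset (ι × ι) :=
  univ.filter fun y => LevelV v k y ∧ (e1 v k y = x ∨ e2 v k y = x)

end Vale.Agent.P040.Lab
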