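import Vale.Agent.P040.Lab.Defs

/-!
# Every wall has exactly two end vertices; marked walls

Fix a wall `(c, Q)` with normal `n`.  Put `sQ u = 1` for `u ∈ Q`, `-1` otherwise.  The vectors
`sQ u • (v c × v u)`, `u ≠ c`, lie in an open half plane of the plane `(v c)^⟂`, where they are
totally ordered by the angle: `u < u'` iff `0 < sQ u * sQ u' * det3 (v c) (v u) (v u')`.
The two ends of the wall are given by the first and by the last element.
-/

namespace Vale.Agent.P040.Lab

open Finset

variable {ι : Type*} [Fintype ι] [DecidableEq ι] {v : ι → V3} {k : ℕ}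

/-- the sign of `u` with respect to `Q` -/
def sQ (Q : Finset ι) (u : ι) : ℝ := if u ∈ Q then 1 else -1

/-- the angular order of the wall `(c, Q)` -/
def ltW (v : ι → V3) (c : ι) (Q : Finset ι) (a b : ι) : Prop :=
  0 < sQ Q a * sQ Q b * det3 (v c) (v a) (v b)

/-- first element -/
def IsMin (v : ι → V3) (c : ι) (Q : Finset ι) (u : ι) : Prop :=
  u ≠ c ∧ ∀ u', u' ≠ c → u' ≠ u → ltW v c Q u u'

/-- last element -/
def IsMax (v : ι → V3) (c : ι) (Q : Finset ι) (u : ι) : Prop :=
  u ≠ c ∧ ∀ u', u' ≠ c → u' ≠ u → ltW v c Q u' u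

/-- the end vertex given by the first element -/
def endMin (c : ι) (Q : Finset ι) (u : ι) : ι × ι := if u ∈ Q then (c, u) else (u, c)

/-- the end vertex given by the last element -/
def endMax (c : ι) (Q : Finset ι) (u : ι) : ι × ι := if u ∈ Q then (u, c) else (c, u)

/-- [D1] unfold everything; `linear_combination` with `h` (the general identity is
`dot n c * det3 a b e - dot n a * det3 c b e + dot n b * det3 c a e - dot n e * det3 c a b = 0`) -/
theorem dot_dep (n c a b e : V3) (h : dot n c = 0) :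
    dot n b * det3 c a e = dot n a * det3 c b e + dot n e * det3 c a b := by
  unfold dot at h
  unfold det3 dot crs
  linear_combination (-(a.1 * (b.2.1 * e.2.2 - b.2.2 * e.2.1) + a.2.1 * (b.2.2 * e.1 - b.1 * e.2.2) + a.2.2 * (b.1 * e.2.1 - b.2.1 * e.1))) * h

/-- [D1'] unfold everything; `ring` -/
theorem det_dep (p c a b u : V3) :
    det3 c a b * det3 p c u = det3 c u b * det3 p c a + det3 c a u * det3 p c b := by
  unfold det3 dot crs
  ring

/-- [D1''] -/
theorem sQ_dot_pos {c : ι} {Q : Finset ι} {n : V3} (h : IsWall v c Q n) {u : ι} (hu : u ≠ c) :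
    0 < sQ Q u * dot n (v u) := by
  obtain ⟨_, _, h3, h4⟩ := h
  unfold sQ
  by_cases hq : u ∈ Q
  · rw [if_pos hq, one_mul]
    exact h3 u hq
  · rw [if_neg hq]
    have := h4 u hu hq
    linarith

/-- [D2] transitivity: multiply `dot_dep` by the signs:
`(sQ b * dot n b) * (sQ a * sQ e * det c a e) = (sQ a * dot n a) * (sQ b * sQ e * det c b e)
 + (sQ e * dot n e) * (sQ a * sQ b * det c a b)` -/
theorem ltW_trans {c : ι} {Q : Finset ι} {n : V3} (h : IsWall v c Q n) {a b e : ι} (ha : a ≠ c)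
    (hb : b ≠ c) (he : e ≠ c) (h1 : ltW v c Q a b) (h2 : ltW v c Q b e) : ltW v c Q a e := by
  unfold ltW at *
  have hA := sQ_dot_pos h ha
  have hB := sQ_dot_pos h hb
  have hE := sQ_dot_pos h he
  have hd := dot_dep n (v c) (v a) (v b) (v e) h.1
  have key : (sQ Q b * dot n (v b)) * (sQ Q a * sQ Q e * det3 (v c) (v a) (v e))
      = (sQ Q a * dot n (v a)) * (sQ Q b * sQ Q e * det3 (v c) (v b) (v e))
        + (sQ Q e * dot n (v e)) * (sQ Q a * sQ Q b * det3 (v c) (v a) (v b)) := by
    linear_combination (sQ Q a * sQ Q b * sQ Q e) * hd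
  have hpos : 0 < (sQ Q b * dot n (v b)) * (sQ Q a * sQ Q e * det3 (v c) (v a) (v e)) := by
    rw [key]
    exact add_pos (mul_pos hA h2) (mul_pos hE h1)
  exact (pos_iff_pos_of_mul_pos hpos).1 hB

/-- [D3] -/
theorem ltW_total (hv : GenPos v) (c : ι) (Q : Finset ι) {a b : ι} (ha : a ≠ c) (hb : b ≠ c)
    (hab : a ≠ b) : ltW v c Q a b ∨ ltW v c Q b a := by
  have hd : det3 (v c) (v a) (v b) ≠ 0 := hv c a b (Ne.symm ha) (Ne.symm hb) hab
  have hsw : det3 (v c) (v b) (v a) = - det3 (v c) (v a) (v b) := by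
    unfold det3 dot crs
    ring
  have hs : ∀ u, sQ Q u = 1 ∨ sQ Q u = -1 := by
    intro u
    unfold sQ
    by_cases h : u ∈ Q
    · left; rw [if_pos h]
    · right; rw [if_neg h]
  unfold ltW
  rw [hsw]
  rcases lt_or_gt_of_ne hd with h | h <;> rcases hs a with h1 | h1 <;> rcases hs b with h2 | h2 <;>
    rw [h1, h2]
  · right; linarith
  · left; linarith
  · left; linarith
  · right; linarith
  · left; linarith
  · right; linarith
  · right; linarith
  · left; linarith

/-- [D4] -/
theorem ltW_asymm (c : ι) (Q : Finset ι) {a b : ι} (h : ltW v c Q a b) : ¬ ltW v c Q b a := by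
  have hsw : det3 (v c) (v b) (v a) = - det3 (v c) (v a) (v b) := by
    unfold det3 dot crs
    ring
  unfold ltW at h ⊢
  rw [hsw]
  intro h'
  have e : sQ Q b * sQ Q a * -det3 (v c) (v a) (v b) = -(sQ Q a * sQ Q b * det3 (v c) (v a) (v b)) := by
    ring
  rw [e] at h'
  linarith

/-- [D5] a finite nonempty strict total order has a first element (induction on a finset `s` of
elements `≠ c`: there is `u ∈ s` before all other elements of `s`) -/
theorem exists_isMin (hv : GenPos v) (hc : Fintype.card ι = 2 * k + 1) (hk : 1 ≤ k) {c : ι}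
    {Q : Finset ι} {n : V3} (h : IsWall v c Q n) : ∃ u, IsMin v c Q u := by
  have key : ∀ s : Finset ι, s.Nonempty → (∀ a ∈ s, a ≠ c) →
      ∃ u ∈ s, ∀ u' ∈ s, u' ≠ u → ltW v c Q u u' := by
    intro s hs
    induction hs using Finset.Nonempty.cons_induction with
    | singleton a =>
      intro _
      refine ⟨a, Finset.mem_singleton_self a, ?_⟩
      intro u' hu' hne
      exact absurd (Finset.mem_singleton.1 hu') hne
    | cons a s ha hs ih =>
      intro hall
      obtain ⟨u, hu, hmin⟩ := ih (fun b hb => hall b (Finset.mem_cons.2 (Or.inr hb)))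
      have hac : a ≠ c := hall a (Finset.mem_cons.2 (Or.inl rfl))
      have huc : u ≠ c := hall u (Finset.mem_cons.2 (Or.inr hu))
      have hau : a ≠ u := fun e => ha (e ▸ hu)
      rcases ltW_total hv c Q hac huc hau with h1 | h1
      · refine ⟨a, Finset.mem_cons.2 (Or.inl rfl), ?_⟩
        intro u' hu' hne
        rcases Finset.mem_cons.1 hu' with rfl | hu'
        · exact absurd rfl hne
        · by_cases e : u' = u
          · rw [e]; exact h1
          · exact ltW_trans h hac huc (hall u' (Finset.mem_cons.2 (Or.inr hu'))) h1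
              (hmin u' hu' e)
      · refine ⟨u, Finset.mem_cons.2 (Or.inr hu), ?_⟩
        intro u' hu' hne
        rcases Finset.mem_cons.1 hu' with rfl | hu'
        · exact h1
        · exact hmin u' hu' hne
  have hne : (univ.erase c).Nonempty := by
    rw [← Finset.card_pos, Finset.card_erase_of_mem (Finset.mem_univ c), Finset.card_univ, hc]
    omega
  obtain ⟨u, hu, hmin⟩ := key (univ.erase c) hne (fun a ha => (Finset.mem_erase.1 ha).1)
  refine ⟨u, (Finset.mem_erase.1 hu).1, ?_⟩
  intro u' hu' hne'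
  exact hmin u' (Finset.mem_erase.2 ⟨hu', Finset.mem_univ _⟩) hne'

/-- [D6] -/
theorem exists_isMax (hv : GenPos v) (hc : Fintype.card ι = 2 * k + 1) (hk : 1 ≤ k) {c : ι}
    {Q : Finset ι} {n : V3} (h : IsWall v c Q n) : ∃ u, IsMax v c Q u := by
  have key : ∀ s : Finset ι, s.Nonempty → (∀ a ∈ s, a ≠ c) →
      ∃ u ∈ s, ∀ u' ∈ s, u' ≠ u → ltW v c Q u' u := by
    intro s hs
    induction hs using Finset.Nonempty.cons_induction with
    | singleton a =>
      intro _
      refine ⟨a, Finset.mem_singleton_self a, ?_⟩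
      intro u' hu' hne
      exact absurd (Finset.mem_singleton.1 hu') hne
    | cons a s ha hs ih =>
      intro hall
      obtain ⟨u, hu, hmax⟩ := ih (fun b hb => hall b (Finset.mem_cons.2 (Or.inr hb)))
      have hac : a ≠ c := hall a (Finset.mem_cons.2 (Or.inl rfl))
      have huc : u ≠ c := hall u (Finset.mem_cons.2 (Or.inr hu))
      have hau : a ≠ u := fun e => ha (e ▸ hu)
      rcases ltW_total hv c Q hac huc hau with h1 | h1
      · refine ⟨u, Finset.mem_cons.2 (Or.inr hu), ?_⟩
        intro u' hu' hne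
        rcases Finset.mem_cons.1 hu' with rfl | hu'
        · exact h1
        · exact hmax u' hu' hne
      · refine ⟨a, Finset.mem_cons.2 (Or.inl rfl), ?_⟩
        intro u' hu' hne
        rcases Finset.mem_cons.1 hu' with rfl | hu'
        · exact absurd rfl hne
        · by_cases e : u' = u
          · rw [e]; exact h1
          · exact ltW_trans h (hall u' (Finset.mem_cons.2 (Or.inr hu'))) huc hac
              (hmax u' hu' e) h1
  have hne : (univ.erase c).Nonempty := by
    rw [← Finset.card_pos, Finset.card_erase_of_mem (Finset.mem_univ c), Finset.card_univ, hc]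
    omega
  obtain ⟨u, hu, hmax⟩ := key (univ.erase c) hne (fun a ha => (Finset.mem_erase.1 ha).1)
  refine ⟨u, (Finset.mem_erase.1 hu).1, ?_⟩
  intro u' hu' hne'
  exact hmax u' (Finset.mem_erase.2 ⟨hu', Finset.mem_univ _⟩) hne'

/-- [D7] uniqueness and `min ≠ max` (there are at least two elements `≠ c`) -/
theorem isMin_unique {c : ι} {Q : Finset ι} {u u' : ι} (h : IsMin v c Q u) (h' : IsMin v c Q u') :
    u = u' := by
  by_contra hne
  exact ltW_asymm c Q (h.2 u' h'.1 (fun e => hne e.symm)) (h'.2 u h.1 hne)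

/-- [D7'] -/
theorem isMax_unique {c : ι} {Q : Finset ι} {u u' : ι} (h : IsMax v c Q u) (h' : IsMax v c Q u') :
    u = u' := by
  by_contra hne
  exact ltW_asymm c Q (h.2 u' h'.1 (fun e => hne e.symm)) (h'.2 u h.1 hne)

/-- [D7''] -/
theorem isMin_ne_isMax (hc : Fintype.card ι = 2 * k + 1) (hk : 1 ≤ k) {c : ι} {Q : Finset ι}
    {u u' : ι} (h : IsMin v c Q u) (h' : IsMax v c Q u') : u ≠ u' := by
  intro e
  subst e
  have hcard : 0 < ((univ.erase c).erase u).card := by
    rw [Finset.card_erase_of_mem (Finset.mem_erase.2 ⟨h.1, Finset.mem_univ u⟩),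
      Finset.card_erase_of_mem (Finset.mem_univ c), Finset.card_univ, hc]
    omega
  obtain ⟨w, hw⟩ := Finset.card_pos.1 hcard
  have hwu : w ≠ u := (Finset.mem_erase.1 hw).1
  have hwc : w ≠ c := (Finset.mem_erase.1 (Finset.mem_erase.1 hw).2).1
  exact ltW_asymm c Q (h.2 w hwc hwu) (h'.2 w hwc hwu)


omit [Fintype ι] in
/-- auxiliary (D8): pure finset part -/
theorem ends_aux {c u : ι} {P Q : Finset ι} (hQ : Q.card = k) (hcQ : c ∉ Q) (hcP : c ∉ P)
    (huP : u ∉ P) :
    ((P.card = k ∨ P.card + 1 = k) ∧ (if P.card = k then P else insert u P) = Q) ↔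
      ∀ u', u' ≠ c → u' ≠ u → (u' ∈ P ↔ u' ∈ Q) := by
  constructor
  · rintro ⟨_, hif⟩ u' h1 h2
    split_ifs at hif with hk
    · rw [hif]
    · rw [← hif, mem_insert]
      exact ⟨Or.inr, fun h => h.resolve_left h2⟩
  · intro K
    by_cases huQ : u ∈ Q
    · have hQe : insert u P = Q := by
        ext j
        rw [mem_insert]
        by_cases hjc : j = c
        · subst hjc
          constructor
          · rintro (h | h)
            · exact absurd (h ▸ huQ) hcQ
            · exact absurd h hcP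
          · intro h
            exact absurd h hcQ
        by_cases hju : j = u
        · subst hju
          exact ⟨fun _ => huQ, fun _ => Or.inl rfl⟩
        · rw [K j hjc hju]
          exact ⟨fun h => h.resolve_left hju, Or.inr⟩
      have hcard : P.card + 1 = k := by
        rw [← hQ, ← hQe, card_insert_of_notMem huP]
      have hne : P.card ≠ k := by omega
      exact ⟨Or.inr hcard, by rw [if_neg hne]; exact hQe⟩
    · have hQe : P = Q := by
        ext j
        by_cases hjc : j = c
        · subst hjc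
          exact ⟨fun h => absurd h hcP, fun h => absurd h hcQ⟩
        by_cases hju : j = u
        · subst hju
          exact ⟨fun h => absurd h huP, fun h => absurd h huQ⟩
        · exact K j hjc hju
      have hcard : P.card = k := by rw [hQe, hQ]
      exact ⟨Or.inl hcard, by rw [if_pos hcard]; exact hQe⟩

omit [Fintype ι] in
/-- auxiliary (D8): signs -/
theorem sQ_mul_pos_iff {Q : Finset ι} {w : ι} {D : ℝ} (hD : D ≠ 0) :
    0 < sQ Q w * D ↔ (0 < D ↔ w ∈ Q) := by
  unfold sQ
  by_cases hw : w ∈ Q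
  · simp [hw]
  · simp only [hw, if_false, iff_false, not_lt]
    constructor
    · intro h; linarith
    · intro h
      have := lt_of_le_of_ne h hD
      linarith

/-- [D8a] `(c,u) ∈ ends` iff `posV v (c,u) = Q.erase u` iff for all `u' ≠ c, u`:
`0 < det3 (v c) (v u) (v u') ↔ u' ∈ Q`; then a sign discussion -/
theorem mem_ends_left (hv : GenPos v) {c : ι} {Q : Finset ι} (hx : Wall v k (c, Q)) {u : ι}
    (hu : u ≠ c) :
    (c, u) ∈ ends v k (c, Q) ↔ (u ∈ Q ∧ IsMin v c Q u) ∨ (u ∉ Q ∧ IsMax v c Q u) := by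
  have hcQ : c ∉ Q := by
    obtain ⟨_, n, hn⟩ := hx
    exact hn.2.1
  have hcP : c ∉ posV v (c, u) := by
    simp only [posV, mem_filter, mem_univ, true_and, not_lt]
    apply le_of_eq
    unfold det3 dot crs; ring
  have huP : u ∉ posV v (c, u) := by
    simp only [posV, mem_filter, mem_univ, true_and, not_lt]
    apply le_of_eq
    unfold det3 dot crs; ring
  have h1 : (c, u) ∈ ends v k (c, Q) ↔
      ∀ u', u' ≠ c → u' ≠ u → (u' ∈ posV v (c, u) ↔ u' ∈ Q) := by
    rw [← ends_aux hx.1 hcQ hcP huP]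
    simp only [ends, mem_filter, mem_univ, true_and, LevelV, e1, e2, Prod.mk.injEq]
    constructor
    · rintro ⟨⟨_, h1⟩, h2 | h2⟩
      · exact ⟨h1, h2⟩
      · exact absurd h2.1 hu
    · rintro ⟨h1, h2⟩
      exact ⟨⟨Ne.symm hu, h1⟩, Or.inl h2⟩
  have h2 : (∀ u', u' ≠ c → u' ≠ u → (u' ∈ posV v (c, u) ↔ u' ∈ Q)) ↔
      ∀ u', u' ≠ c → u' ≠ u → 0 < sQ Q u' * det3 (v c) (v u) (v u') := by
    refine forall_congr' fun u' => forall_congr' fun a1 => forall_congr' fun a2 => ?_
    rw [sQ_mul_pos_iff (hv c u u' (Ne.symm hu) (Ne.symm a1) (Ne.symm a2))]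
    simp only [posV, mem_filter, mem_univ, true_and]
  rw [h1, h2]
  have hsw : ∀ u', det3 (v c) (v u') (v u) = - det3 (v c) (v u) (v u') := by
    intro u'; unfold det3 dot crs; ring
  by_cases huQ : u ∈ Q
  · have hs : sQ Q u = 1 := by simp [sQ, huQ]
    simp only [huQ, true_and, not_true_eq_false, false_and, or_false, IsMin, ltW, hs, one_mul]
    exact ⟨fun h => ⟨hu, h⟩, fun h => h.2⟩
  · have hs : sQ Q u = -1 := by simp [sQ, huQ]
    simp only [huQ, false_and, not_false_eq_true, true_and, false_or, IsMax, ltW, hs, hsw]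
    constructor
    · intro h
      refine ⟨hu, fun u' a1 a2 => ?_⟩
      have := h u' a1 a2
      linarith
    · intro h u' a1 a2
      have := h.2 u' a1 a2
      linarith

/-- [D8b] `(u,c) ∈ ends` iff `posV v (u,c) = Q.erase u` iff for all `u' ≠ c, u`:
`det3 (v c) (v u) (v u') < 0 ↔ u' ∈ Q` -/
theorem mem_ends_right (hv : GenPos v) {c : ι} {Q : Finset ι} (hx : Wall v k (c, Q)) {u : ι}
    (hu : u ≠ c) :
    (u, c) ∈ ends v k (c, Q) ↔ (u ∈ Q ∧ IsMax v c Q u) ∨ (u ∉ Q ∧ IsMin v c Q u) := by
  have hcQ : c ∉ Q := by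
    obtain ⟨_, n, hn⟩ := hx
    exact hn.2.1
  have hcP : c ∉ posV v (u, c) := by
    simp only [posV, mem_filter, mem_univ, true_and, not_lt]
    apply le_of_eq
    unfold det3 dot crs; ring
  have huP : u ∉ posV v (u, c) := by
    simp only [posV, mem_filter, mem_univ, true_and, not_lt]
    apply le_of_eq
    unfold det3 dot crs; ring
  have h1 : (u, c) ∈ ends v k (c, Q) ↔
      ∀ u', u' ≠ c → u' ≠ u → (u' ∈ posV v (u, c) ↔ u' ∈ Q) := by
    rw [← ends_aux hx.1 hcQ hcP huP]
    simp only [ends, mem_filter, mem_univ, true_and, LevelV, e1, e2, Prod.mk.injEq]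
    constructor
    · rintro ⟨⟨_, h1⟩, h2 | h2⟩
      · exact absurd h2.1 hu
      · exact ⟨h1, h2⟩
    · rintro ⟨h1, h2⟩
      exact ⟨⟨hu, h1⟩, Or.inr h2⟩
  have h2 : (∀ u', u' ≠ c → u' ≠ u → (u' ∈ posV v (u, c) ↔ u' ∈ Q)) ↔
      ∀ u', u' ≠ c → u' ≠ u → 0 < sQ Q u' * det3 (v u) (v c) (v u') := by
    refine forall_congr' fun u' => forall_congr' fun a1 => forall_congr' fun a2 => ?_
    rw [sQ_mul_pos_iff (hv u c u' hu (Ne.symm a2) (Ne.symm a1))]
    simp only [posV, mem_filter, mem_univ, true_and]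
  rw [h1, h2]
  have hsw : ∀ u', det3 (v c) (v u') (v u) = det3 (v u) (v c) (v u') := by
    intro u'; unfold det3 dot crs; ring
  have hsw2 : ∀ u', det3 (v c) (v u) (v u') = - det3 (v u) (v c) (v u') := by
    intro u'; unfold det3 dot crs; ring
  by_cases huQ : u ∈ Q
  · have hs : sQ Q u = 1 := by simp [sQ, huQ]
    simp only [huQ, true_and, not_true_eq_false, false_and, or_false, IsMax, ltW, hs, mul_one, hsw]
    exact ⟨fun h => ⟨hu, h⟩, fun h => h.2⟩
  · have hs : sQ Q u = -1 := by simp [sQ, huQ]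
    simp only [huQ, false_and, not_false_eq_true, true_and, false_or, IsMin, ltW, hs, hsw2]
    constructor
    · intro h
      refine ⟨hu, fun u' a1 a2 => ?_⟩
      have := h u' a1 a2
      linarith
    · intro h u' a1 a2
      have := h.2 u' a1 a2
      linarith

/-- [D8c] -/
theorem ends_shape {c : ι} {Q : Finset ι} {y : ι × ι} (hy : y ∈ ends v k (c, Q)) :
    y.1 ≠ y.2 ∧ (y.1 = c ∨ y.2 = c) := by
  classical
  unfold ends at hy
  rw [mem_filter] at hy
  obtain ⟨-, hL, h⟩ := hy
  refine ⟨hL.1, ?_⟩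
  rcases h with h | h
  · left
    exact congrArg Prod.fst h
  · right
    exact congrArg Prod.fst h

/-- [D9] from D5-D8 -/
theorem ends_eq (hv : GenPos v) (hc : Fintype.card ι = 2 * k + 1) (hk : 1 ≤ k) {c : ι}
    {Q : Finset ι} (hx : Wall v k (c, Q)) :
    ∃ u₁ u₂, u₁ ≠ u₂ ∧ IsMin v c Q u₁ ∧ IsMax v c Q u₂ ∧
      ends v k (c, Q) = {endMin c Q u₁, endMax c Q u₂} := by
  obtain ⟨n, hn⟩ := hx.2
  obtain ⟨u₁, h1⟩ := exists_isMin hv hc hk hn
  obtain ⟨u₂, h2⟩ := exists_isMax hv hc hk hn
  refine ⟨u₁, u₂, isMin_ne_isMax hc hk h1 h2, h1, h2, ?_⟩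
  ext y
  rw [mem_insert, mem_singleton]
  constructor
  · intro hy
    obtain ⟨hne, hs⟩ := ends_shape hy
    obtain ⟨a, b⟩ := y
    simp only at hne hs
    rcases hs with rfl | rfl
    · rcases (mem_ends_left hv hx (Ne.symm hne)).1 hy with ⟨hq, hm⟩ | ⟨hq, hm⟩
      · left
        have : b = u₁ := isMin_unique hm h1
        subst this
        unfold endMin
        rw [if_pos hq]
      · right
        have : b = u₂ := isMax_unique hm h2
        subst this
        unfold endMax
        rw [if_neg hq]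
    · rcases (mem_ends_right hv hx hne).1 hy with ⟨hq, hm⟩ | ⟨hq, hm⟩
      · right
        have : a = u₂ := isMax_unique hm h2
        subst this
        unfold endMax
        rw [if_pos hq]
      · left
        have : a = u₁ := isMin_unique hm h1
        subst this
        unfold endMin
        rw [if_neg hq]
  · rintro (rfl | rfl)
    · unfold endMin
      split_ifs with hq
      · exact (mem_ends_left hv hx h1.1).2 (Or.inl ⟨hq, h1⟩)
      · exact (mem_ends_right hv hx h1.1).2 (Or.inr ⟨hq, h1⟩)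
    · unfold endMax
      split_ifs with hq
      · exact (mem_ends_right hv hx h2.1).2 (Or.inl ⟨hq, h2⟩)
      · exact (mem_ends_left hv hx h2.1).2 (Or.inr ⟨hq, h2⟩)

/-- [D10] every wall has exactly two end vertices -/
theorem card_ends (hv : GenPos v) (hc : Fintype.card ι = 2 * k + 1) (hk : 1 ≤ k)
    {x : ι × Finset ι} (hx : Wall v k x) : (ends v k x).card = 2 := by
  obtain ⟨c, Q⟩ := x
  obtain ⟨u₁, u₂, hne, h1, h2, he⟩ := ends_eq hv hc hk hx
  rw [he]
  apply card_pair
  unfold endMin endMax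
  have a1 := h1.1
  have a2 := h2.1
  split_ifs <;> simp only [ne_eq, Prod.mk.injEq, not_and]
  · intro e
    exact absurd e.symm a2
  · intro _
    exact hne
  · intro e
    exact absurd e hne
  · intro e
    exact absurd e a1

/-- [F1] -/
theorem det_endMin (p : V3) (c : ι) (Q : Finset ι) (u : ι) :
    det3 p (v (endMin c Q u).1) (v (endMin c Q u).2) = sQ Q u * det3 p (v c) (v u) := by
  unfold endMin sQ
  split_ifs with h
  · simp
  · simp only [det3, dot, crs]; ring

/-- [F1'] -/
theorem det_endMax (p : V3) (c : ι) (Q : Finset ι) (u : ι) :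
    det3 p (v (endMax c Q u).1) (v (endMax c Q u).2) = -(sQ Q u * det3 p (v c) (v u)) := by
  unfold endMax sQ
  split_ifs with h
  · simp only [det3, dot, crs]; ring
  · simp

/-- [F2] multiply `det_dep` (with `a = u₁`, `b = u₂`) by the signs -/
theorem between_pos {p : V3} {c : ι} {Q : Finset ι} {u₁ u₂ : ι} (h1 : IsMin v c Q u₁)
    (h2 : IsMax v c Q u₂) (hne : u₁ ≠ u₂) (hp1 : 0 < sQ Q u₁ * det3 p (v c) (v u₁))
    (hp2 : 0 < sQ Q u₂ * det3 p (v c) (v u₂)) {u : ι} (hu : u ≠ c) :
    0 < sQ Q u * det3 p (v c) (v u) := by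
  by_cases e1 : u = u₁
  · subst e1; exact hp1
  by_cases e2 : u = u₂
  · subst e2; exact hp2
  have hA : 0 < sQ Q u₁ * sQ Q u₂ * det3 (v c) (v u₁) (v u₂) := h1.2 u₂ h2.1 (Ne.symm hne)
  have hB : 0 < sQ Q u * sQ Q u₂ * det3 (v c) (v u) (v u₂) := h2.2 u hu e2
  have hC : 0 < sQ Q u₁ * sQ Q u * det3 (v c) (v u₁) (v u) := h1.2 u hu e1
  have hd := det_dep p (v c) (v u₁) (v u₂) (v u)
  have key : (sQ Q u₁ * sQ Q u₂ * det3 (v c) (v u₁) (v u₂)) * (sQ Q u * det3 p (v c) (v u)) =
      (sQ Q u * sQ Q u₂ * det3 (v c) (v u) (v u₂)) * (sQ Q u₁ * det3 p (v c) (v u₁)) +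
      (sQ Q u₁ * sQ Q u * det3 (v c) (v u₁) (v u)) * (sQ Q u₂ * det3 p (v c) (v u₂)) := by
    linear_combination (sQ Q u₁ * sQ Q u₂ * sQ Q u) * hd
  have hpos : 0 < (sQ Q u₁ * sQ Q u₂ * det3 (v c) (v u₁) (v u₂)) *
      (sQ Q u * det3 p (v c) (v u)) := by
    rw [key]
    exact add_pos (mul_pos hB hp1) (mul_pos hC hp2)
  exact (mul_pos_iff_of_pos_left hA).1 hpos

/-- [F2'] -/
theorem between_neg {p : V3} {c : ι} {Q : Finset ι} {u₁ u₂ : ι} (h1 : IsMin v c Q u₁)
    (h2 : IsMax v c Q u₂) (hne : u₁ ≠ u₂) (hp1 : sQ Q u₁ * det3 p (v c) (v u₁) < 0)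
    (hp2 : sQ Q u₂ * det3 p (v c) (v u₂) < 0) {u : ι} (hu : u ≠ c) :
    sQ Q u * det3 p (v c) (v u) < 0 := by
  by_cases e1 : u = u₁
  · subst e1; exact hp1
  by_cases e2 : u = u₂
  · subst e2; exact hp2
  have hA : 0 < sQ Q u₁ * sQ Q u₂ * det3 (v c) (v u₁) (v u₂) := h1.2 u₂ h2.1 (Ne.symm hne)
  have hB : 0 < sQ Q u * sQ Q u₂ * det3 (v c) (v u) (v u₂) := h2.2 u hu e2
  have hC : 0 < sQ Q u₁ * sQ Q u * det3 (v c) (v u₁) (v u) := h1.2 u hu e1
  have hd := det_dep p (v c) (v u₁) (v u₂) (v u)
  have key : (sQ Q u₁ * sQ Q u₂ * det3 (v c) (v u₁) (v u₂)) * (sQ Q u * det3 p (v c) (v u)) =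
      (sQ Q u * sQ Q u₂ * det3 (v c) (v u) (v u₂)) * (sQ Q u₁ * det3 p (v c) (v u₁)) +
      (sQ Q u₁ * sQ Q u * det3 (v c) (v u₁) (v u)) * (sQ Q u₂ * det3 p (v c) (v u₂)) := by
    linear_combination (sQ Q u₁ * sQ Q u₂ * sQ Q u) * hd
  have hneg : (sQ Q u₁ * sQ Q u₂ * det3 (v c) (v u₁) (v u₂)) *
      (sQ Q u * det3 p (v c) (v u)) < 0 := by
    rw [key]
    exact add_neg (mul_neg_of_pos_of_neg hB hp1) (mul_neg_of_pos_of_neg hC hp2)
  by_contra hcon
  have h0 : 0 ≤ sQ Q u * det3 p (v c) (v u) := not_lt.1 hcon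
  have := mul_nonneg hA.le h0
  linarith

private lemma det3_self_right (p c : V3) : det3 p c c = 0 := by
  unfold det3 dot crs
  ring

/-- [F3] -/
theorem eq_posP_iff {p : V3} (hp : GenP v p) {c : ι} {Q : Finset ι} (hcQ : c ∉ Q) :
    Q = posP v p c ↔ ∀ u, u ≠ c → 0 < sQ Q u * det3 p (v c) (v u) := by
  constructor
  · intro h u hu
    by_cases huQ : u ∈ Q
    · have h1 : u ∈ posP v p c := h ▸ huQ
      have h2 : 0 < det3 p (v c) (v u) := by
        unfold posP at h1
        exact (mem_filter.1 h1).2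
      unfold sQ
      rw [if_pos huQ]
      linarith
    · have h1 : u ∉ posP v p c := h ▸ huQ
      have h2 : ¬ 0 < det3 p (v c) (v u) := by
        intro h3
        apply h1
        unfold posP
        exact mem_filter.2 ⟨mem_univ _, h3⟩
      have h3 : det3 p (v c) (v u) ≠ 0 := hp c u (Ne.symm hu)
      have h4 : det3 p (v c) (v u) < 0 := lt_of_le_of_ne (not_lt.1 h2) h3
      unfold sQ
      rw [if_neg huQ]
      linarith
  · intro h
    ext u
    unfold posP
    rw [mem_filter]
    by_cases hu : u = c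
    · subst hu
      rw [det3_self_right]
      simp [hcQ]
    · have h1 := h u hu
      unfold sQ at h1
      by_cases huQ : u ∈ Q
      · rw [if_pos huQ] at h1
        constructor
        · intro _
          exact ⟨mem_univ _, by linarith⟩
        · intro _
          exact huQ
      · rw [if_neg huQ] at h1
        constructor
        · intro h2
          exact absurd h2 huQ
        · intro h2
          have := h2.2
          linarith

/-- [F3'] -/
theorem eq_negP_iff {p : V3} (hp : GenP v p) {c : ι} {Q : Finset ι} (hcQ : c ∉ Q) :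
    Q = negP v p c ↔ ∀ u, u ≠ c → sQ Q u * det3 p (v c) (v u) < 0 := by
  constructor
  · intro h u hu
    by_cases huQ : u ∈ Q
    · have h1 : u ∈ negP v p c := h ▸ huQ
      have h2 : det3 p (v c) (v u) < 0 := by
        unfold negP at h1
        exact (mem_filter.1 h1).2
      unfold sQ
      rw [if_pos huQ]
      linarith
    · have h1 : u ∉ negP v p c := h ▸ huQ
      have h2 : ¬ det3 p (v c) (v u) < 0 := by
        intro h3
        apply h1
        unfold negP
        exact mem_filter.2 ⟨mem_univ _, h3⟩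
      have h3 : det3 p (v c) (v u) ≠ 0 := hp c u (Ne.symm hu)
      have h4 : 0 < det3 p (v c) (v u) := lt_of_le_of_ne (not_lt.1 h2) (Ne.symm h3)
      unfold sQ
      rw [if_neg huQ]
      linarith
  · intro h
    ext u
    unfold negP
    rw [mem_filter]
    by_cases hu : u = c
    · subst hu
      rw [det3_self_right]
      simp [hcQ]
    · have h1 := h u hu
      unfold sQ at h1
      by_cases huQ : u ∈ Q
      · rw [if_pos huQ] at h1
        constructor
        · intro _
          exact ⟨mem_univ _, by linarith⟩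
        · intro _
          exact huQ
      · rw [if_neg huQ] at h1
        constructor
        · intro h2
          exact absurd h2 huQ
        · intro h2
          have := h2.2
          linarith

open Classical in
/-- [F4] a wall is marked (exactly one of its two ends is on the positive side of `p`) iff it lies on
the pencil of `p`.  From `ends_eq`, F1-F3: the two ends have the values `φ u₁` and `- φ u₂`,
`φ u = sQ u * det3 p (v c) (v u) ≠ 0`. -/
theorem mark_iff (hv : GenPos v) (hc : Fintype.card ι = 2 * k + 1) (hk : 1 ≤ k) {p : V3}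
    (hp : GenP v p) {x : ι × Finset ι} (hx : Wall v k x) :
    ((ends v k x).filter fun y => 0 < det3 p (v y.1) (v y.2)).card = 1 ↔
      (x.2 = posP v p x.1 ∨ x.2 = negP v p x.1) := by
  obtain ⟨c, Q⟩ := x
  obtain ⟨u₁, u₂, hne, hmin, hmax, hends⟩ := ends_eq hv hc hk hx
  have hcard := card_ends hv hc hk hx
  have hAB : endMin c Q u₁ ≠ endMax c Q u₂ := by
    intro h
    rw [hends, h] at hcard
    simp at hcard
  obtain ⟨n, hn⟩ := hx.2
  have hcQ : c ∉ Q := hn.2.1
  have hs : ∀ u, sQ Q u ≠ 0 := by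
    intro u
    unfold sQ
    split_ifs <;> norm_num
  have hφ : ∀ u, u ≠ c → sQ Q u * det3 p (v c) (v u) ≠ 0 :=
    fun u hu => mul_ne_zero (hs u) (hp c u (Ne.symm hu))
  simp only
  rw [hends, Finset.filter_insert, Finset.filter_singleton, det_endMin, det_endMax,
    eq_posP_iff hp hcQ, eq_negP_iff hp hcQ]
  rcases lt_or_gt_of_ne (hφ u₁ hmin.1) with a1 | a1 <;>
    rcases lt_or_gt_of_ne (hφ u₂ hmax.1) with a2 | a2
  · have b1 : ¬ 0 < sQ Q u₁ * det3 p (v c) (v u₁) := not_lt.mpr a1.le
    have b2 : 0 < -(sQ Q u₂ * det3 p (v c) (v u₂)) := by linarith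
    rw [if_neg b1, if_pos b2]
    constructor
    · intro _
      exact Or.inr fun u hu => between_neg hmin hmax hne a1 a2 hu
    · intro _
      exact Finset.card_singleton _
  · have b1 : ¬ 0 < sQ Q u₁ * det3 p (v c) (v u₁) := not_lt.mpr a1.le
    have b2 : ¬ 0 < -(sQ Q u₂ * det3 p (v c) (v u₂)) := by
      intro h
      linarith
    rw [if_neg b1, if_neg b2]
    constructor
    · intro h
      simp at h
    · rintro (h | h)
      · exact absurd (h u₁ hmin.1) b1
      · exact absurd (h u₂ hmax.1) (not_lt.mpr a2.le)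
  · have b2 : 0 < -(sQ Q u₂ * det3 p (v c) (v u₂)) := by linarith
    rw [if_pos a1, if_pos b2]
    constructor
    · intro h
      rw [Finset.card_pair hAB] at h
      omega
    · rintro (h | h)
      · exact absurd (h u₂ hmax.1) (not_lt.mpr a2.le)
      · exact absurd (h u₁ hmin.1) (not_lt.mpr a1.le)
  · have b2 : ¬ 0 < -(sQ Q u₂ * det3 p (v c) (v u₂)) := by
      intro h
      linarith
    rw [if_pos a1, if_neg b2]
    constructor
    · intro _
      exact Or.inl fun u hu => between_pos hmin hmax hne a1 a2 hu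
    · intro _
      simp

end Vale.Agent.P040.Lab
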