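import Vale.Agent.P040.Lab.Defs

/-!
# Every wall has exactly two end vertices (helper35)
-/

namespace Vale.Agent.P040.Lab

open Finset

variable {ι : Type*} [Fintype ι] [DecidableEq ι] {v : ι → V3} {k : ℕ}

lemma key_identity35 (u n w z : V3) :
    dot n w * dot (crs u n) z - dot (crs u n) w * dot n z
      = dot n n * det3 u w z - dot n u * det3 n w z := by
  unfold det3 dot crs
  ring

lemma det3_swap35 (a b c : V3) : det3 b a c = - det3 a b c := by
  unfold det3 dot crs
  ring

lemma det3_self_left35 (a b : V3) : det3 a b a = 0 := by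
  unfold det3 dot crs
  ring

lemma det3_self_right35 (a b : V3) : det3 a b b = 0 := by
  unfold det3 dot crs
  ring

lemma iff_aux35 (A D : ℝ) (hA : A ≠ 0) (hD : D ≠ 0) : ((0 < A * D) ↔ 0 < D) ↔ 0 < A := by
  constructor
  · intro h
    by_contra hA'
    have hA2 : A < 0 := lt_of_le_of_ne (not_lt.mp hA') hA
    rcases lt_or_gt_of_ne hD with h1 | h1
    · have : 0 < A * D := mul_pos_of_neg_of_neg hA2 h1
      exact absurd (h.1 this) (not_lt.mpr h1.le)
    · have : 0 < A * D := h.2 h1
      have h2 : A * D < 0 := mul_neg_of_neg_of_pos hA2 h1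
      exact absurd this (not_lt.mpr h2.le)
  · intro h
    exact ⟨fun h1 => (pos_iff_pos_of_mul_pos h1).1 h, fun h1 => mul_pos h h1⟩

omit [Fintype ι] in
/-- combinatorial core of `e1 y = x`, `e2 y = x` -/
lemma set_iff35 (hk : 1 ≤ k) {c w : ι} {Q Pz : Finset ι} (hQ : Q.card = k) (hcQ : c ∉ Q)
    (hcP : c ∉ Pz) (hwP : w ∉ Pz) :
    ((Pz.card = k ∨ Pz.card + 1 = k) ∧ (if Pz.card = k then Pz else insert w Pz) = Q) ↔
      ∀ j, j ≠ c → j ≠ w → (j ∈ Pz ↔ j ∈ Q) := by
  constructor
  · rintro ⟨-, h⟩ j _ hjw
    by_cases hc : Pz.card = k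
    · rw [if_pos hc] at h
      rw [h]
    · rw [if_neg hc] at h
      rw [← h, mem_insert]
      constructor
      · exact fun h1 => Or.inr h1
      · rintro (h1 | h1)
        · exact absurd h1 hjw
        · exact h1
  · intro h
    by_cases hwQ : w ∈ Q
    · have hP : Pz = Q.erase w := by
        ext j
        rw [mem_erase]
        by_cases hjw : j = w
        · subst hjw
          simp [hwP]
        by_cases hjc : j = c
        · subst hjc
          simp [hcP, hcQ]
        rw [h j hjc hjw]
        simp [hjw]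
      have hcard : Pz.card + 1 = k := by
        rw [hP, card_erase_of_mem hwQ, hQ]
        omega
      have hne : Pz.card ≠ k := by omega
      refine ⟨Or.inr hcard, ?_⟩
      rw [if_neg hne, hP, insert_erase hwQ]
    · have hP : Pz = Q := by
        ext j
        by_cases hjw : j = w
        · subst hjw
          simp [hwP, hwQ]
        by_cases hjc : j = c
        · subst hjc
          simp [hcP, hcQ]
        exact h j hjc hjw
      have hcard : Pz.card = k := by rw [hP, hQ]
      exact ⟨Or.inl hcard, by rw [if_pos hcard, hP]⟩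

lemma e1_iff35 (hk : 1 ≤ k) {c w : ι} {Q : Finset ι} (hQ : Q.card = k) (hcQ : c ∉ Q)
    (hw : w ≠ c) :
    (LevelV v k (c, w) ∧ e1 v k (c, w) = (c, Q)) ↔
      ∀ j, j ≠ c → j ≠ w → (0 < det3 (v c) (v w) (v j) ↔ j ∈ Q) := by
  have hcP : c ∉ posV v (c, w) := by
    simp [posV, det3_self_left35]
  have hwP : w ∉ posV v (c, w) := by
    simp [posV, det3_self_right35]
  have key := set_iff35 hk hQ hcQ hcP hwP
  have hmem : ∀ j, j ∈ posV v (c, w) ↔ 0 < det3 (v c) (v w) (v j) := by
    intro j
    simp [posV]
  simp only [hmem] at key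
  rw [← key]
  unfold LevelV e1
  simp only [Prod.mk.injEq, true_and]
  constructor
  · rintro ⟨⟨-, h1⟩, h2⟩
    exact ⟨h1, h2⟩
  · rintro ⟨h1, h2⟩
    exact ⟨⟨fun h => hw h.symm, h1⟩, h2⟩

lemma e2_iff35 (hk : 1 ≤ k) {c w : ι} {Q : Finset ι} (hQ : Q.card = k) (hcQ : c ∉ Q)
    (hw : w ≠ c) :
    (LevelV v k (w, c) ∧ e2 v k (w, c) = (c, Q)) ↔
      ∀ j, j ≠ c → j ≠ w → (0 < det3 (v w) (v c) (v j) ↔ j ∈ Q) := by
  have hcP : c ∉ posV v (w, c) := by
    simp [posV, det3_self_right35]
  have hwP : w ∉ posV v (w, c) := by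
    simp [posV, det3_self_left35]
  have key := set_iff35 hk hQ hcQ hcP hwP
  have hmem : ∀ j, j ∈ posV v (w, c) ↔ 0 < det3 (v w) (v c) (v j) := by
    intro j
    simp [posV]
  simp only [hmem] at key
  rw [← key]
  unfold LevelV e2
  simp only [Prod.mk.injEq, true_and]
  constructor
  · rintro ⟨⟨-, h1⟩, h2⟩
    exact ⟨h1, h2⟩
  · rintro ⟨h1, h2⟩
    exact ⟨⟨hw, h1⟩, h2⟩

/-- EVERY WALL HAS EXACTLY TWO END VERTICES. -/
theorem card_ends35 (hv : GenPos v) (hc : Fintype.card ι = 2 * k + 1) (hk : 1 ≤ k)
    {x : ι × Finset ι} (hx : Wall v k x) : (ends v k x).card = 2 := by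
  classical
  obtain ⟨c, Q⟩ := x
  obtain ⟨hQ, n, hnc, hcQ, hpos, hneg⟩ := hx
  simp only at hQ hnc hcQ hpos hneg
  set d : ι → ℝ := fun j => dot n (v j) with hd_def
  set e : ι → ℝ := fun j => dot (crs (v c) n) (v j) with he_def
  set κ : ι → ℝ := fun j => e j / d j with hκ_def
  have hd : ∀ j, j ≠ c → d j ≠ 0 := by
    intro j hj
    by_cases hjQ : j ∈ Q
    · exact (hpos j hjQ).ne'
    · exact (hneg j hj hjQ).ne
  have hdQ : ∀ j, j ≠ c → (0 < d j ↔ j ∈ Q) := by
    intro j hj
    constructor
    · intro h
      by_contra hjQ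
      exact absurd (hneg j hj hjQ) (not_lt.mpr h.le)
    · exact fun h => hpos j h
  -- a third index
  have hthird : ∀ w, ∃ j, j ≠ c ∧ j ≠ w := by
    intro w
    have h1 : ({c, w} : Finset ι).card < (univ : Finset ι).card := by
      rw [card_univ, hc]
      have := card_le_two (a := c) (b := w)
      omega
    obtain ⟨j, -, hj⟩ := exists_mem_notMem_of_card_lt_card h1
    simp only [mem_insert, mem_singleton, not_or] at hj
    exact ⟨j, hj.1, hj.2⟩
  have hnn : 0 < dot n n := by
    obtain ⟨j, hj, -⟩ := hthird c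
    have h1 := hd j hj
    have h2 : 0 ≤ dot n n := by
      unfold dot
      nlinarith [mul_self_nonneg n.1, mul_self_nonneg n.2.1, mul_self_nonneg n.2.2]
    rcases h2.lt_or_eq with h3 | h3
    · exact h3
    · exfalso
      apply h1
      have h4 : n.1 * n.1 + n.2.1 * n.2.1 + n.2.2 * n.2.2 = 0 := h3.symm
      have a1 : n.1 = 0 := by nlinarith [mul_self_nonneg n.1, mul_self_nonneg n.2.1, mul_self_nonneg n.2.2]
      have a2 : n.2.1 = 0 := by nlinarith [mul_self_nonneg n.1, mul_self_nonneg n.2.1, mul_self_nonneg n.2.2]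
      have a3 : n.2.2 = 0 := by nlinarith [mul_self_nonneg n.1, mul_self_nonneg n.2.1, mul_self_nonneg n.2.2]
      simp only [hd_def, dot, a1, a2, a3]
      ring
  have hdet : ∀ w j, w ≠ c → j ≠ c →
      dot n n * det3 (v c) (v w) (v j) = d w * (κ j - κ w) * d j := by
    intro w j hw hj
    have h1 := key_identity35 (v c) n (v w) (v j)
    rw [hnc, zero_mul, sub_zero] at h1
    rw [← h1]
    have hdw := hd w hw
    have hdj := hd j hj
    simp only [hκ_def]
    field_simp
    simp only [hd_def, he_def]
    ring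
  have hκinj : ∀ w j, w ≠ c → j ≠ c → j ≠ w → κ j - κ w ≠ 0 := by
    intro w j hw hj hjw h0
    have h1 := hdet w j hw hj
    rw [h0, mul_zero, zero_mul] at h1
    have h2 := hv c w j hw.symm hj.symm hjw.symm
    rcases mul_eq_zero.mp h1 with h3 | h3
    · exact hnn.ne' h3
    · exact h2 h3
  -- the two conditions in terms of the keys
  have hA : ∀ w, w ≠ c → ((LevelV v k (c, w) ∧ e1 v k (c, w) = (c, Q)) ↔
      ∀ j, j ≠ c → j ≠ w → 0 < d w * (κ j - κ w)) := by
    intro w hw
    rw [e1_iff35 hk hQ hcQ hw]
    refine forall_congr' fun j => forall_congr' fun hj => forall_congr' fun hjw => ?_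
    rw [← hdQ j hj, ← iff_aux35 _ (d j) (mul_ne_zero (hd w hw) (hκinj w j hw hj hjw)) (hd j hj),
      ← hdet w j hw hj]
    rw [mul_pos_iff_of_pos_left hnn]
  have hB : ∀ w, w ≠ c → ((LevelV v k (w, c) ∧ e2 v k (w, c) = (c, Q)) ↔
      ∀ j, j ≠ c → j ≠ w → 0 < d w * (κ w - κ j)) := by
    intro w hw
    rw [e2_iff35 hk hQ hcQ hw]
    refine forall_congr' fun j => forall_congr' fun hj => forall_congr' fun hjw => ?_
    have hne : d w * (κ w - κ j) ≠ 0 := by
      refine mul_ne_zero (hd w hw) ?_
      intro h0
      exact hκinj w j hw hj hjw (by linarith)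
    rw [← hdQ j hj, ← iff_aux35 _ (d j) hne (hd j hj)]
    have h1 : d w * (κ w - κ j) * d j = dot n n * det3 (v w) (v c) (v j) := by
      rw [det3_swap35 (v c) (v w) (v j), mul_neg, hdet w j hw hj]
      ring
    rw [h1, mul_pos_iff_of_pos_left hnn]
  -- argmin and argmax
  have hT : (univ.erase c : Finset ι).Nonempty := by
    obtain ⟨j, hj, -⟩ := hthird c
    exact ⟨j, mem_erase.mpr ⟨hj, mem_univ _⟩⟩
  obtain ⟨wmin, hwmin, hmin⟩ := exists_min_image (univ.erase c) κ hT
  obtain ⟨wmax, hwmax, hmax⟩ := exists_max_image (univ.erase c) κ hT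
  have hwminc : wmin ≠ c := (mem_erase.mp hwmin).1
  have hwmaxc : wmax ≠ c := (mem_erase.mp hwmax).1
  have hmin' : ∀ j, j ≠ c → j ≠ wmin → 0 < κ j - κ wmin := by
    intro j hj hjw
    have h1 := hmin j (mem_erase.mpr ⟨hj, mem_univ _⟩)
    have h2 := hκinj wmin j hwminc hj hjw
    rcases (sub_nonneg.mpr h1).lt_or_eq with h3 | h3
    · exact h3
    · exact absurd h3.symm h2
  have hmax' : ∀ j, j ≠ c → j ≠ wmax → 0 < κ wmax - κ j := by
    intro j hj hjw
    have h1 := hmax j (mem_erase.mpr ⟨hj, mem_univ _⟩)
    have h2 := hκinj wmax j hwmaxc hj hjw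
    rcases (sub_nonneg.mpr h1).lt_or_eq with h3 | h3
    · exact h3
    · exfalso
      apply h2
      linarith
  have hmm : wmin ≠ wmax := by
    intro h
    obtain ⟨j, hj, hjw⟩ := hthird wmin
    have h1 := hmin' j hj hjw
    have h2 := hmax' j hj (h ▸ hjw)
    rw [← h] at h2
    linarith
  -- uniqueness
  have umin : ∀ w, w ≠ c → (∀ j, j ≠ c → j ≠ w → 0 < κ j - κ w) → w = wmin := by
    intro w hw h
    by_contra hne
    have h1 := h wmin hwminc (fun h => hne h.symm)
    have h2 := hmin' w hw hne
    linarith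
  have umax : ∀ w, w ≠ c → (∀ j, j ≠ c → j ≠ w → 0 < κ w - κ j) → w = wmax := by
    intro w hw h
    by_contra hne
    have h1 := h wmax hwmaxc (fun h => hne h.symm)
    have h2 := hmax' w hw hne
    linarith
  set ymin : ι × ι := if 0 < d wmin then (c, wmin) else (wmin, c) with hymin
  set ymax : ι × ι := if 0 < d wmax then (wmax, c) else (c, wmax) with hymax
  have hne : ymin ≠ ymax := by
    rw [hymin, hymax]
    split_ifs <;> simp only [ne_eq, Prod.mk.injEq, not_and]
    · exact fun h => absurd h.symm hwmaxc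
    · exact fun _ => hmm
    · exact fun h => absurd h hmm
    · exact fun h => absurd h hwminc
  have hends : ends v k (c, Q) = {ymin, ymax} := by
    ext ⟨a, b⟩
    simp only [ends, mem_filter, mem_univ, true_and, mem_insert, mem_singleton]
    constructor
    · rintro ⟨hL, h | h⟩
      · -- `e1`
        have hac : a = c := by
          have := congrArg Prod.fst h
          simpa [e1] using this
        subst hac
        have hb : b ≠ a := fun h => hL.1 h.symm
        have h1 := (hA b hb).1 ⟨hL, h⟩
        rcases lt_or_gt_of_ne (hd b hb) with hdb | hdb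
        · right
          have : b = wmax := by
            apply umax b hb
            intro j hj hjb
            have := h1 j hj hjb
            nlinarith
          subst this
          rw [hymax, if_neg (not_lt.mpr hdb.le)]
        · left
          have : b = wmin := by
            apply umin b hb
            intro j hj hjb
            exact (pos_iff_pos_of_mul_pos (h1 j hj hjb)).1 hdb
          subst this
          rw [hymin, if_pos hdb]
      · have hbc : b = c := by
          have := congrArg Prod.fst h
          simpa [e2] using this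
        subst hbc
        have ha : a ≠ b := hL.1
        have h1 := (hB a ha).1 ⟨hL, h⟩
        rcases lt_or_gt_of_ne (hd a ha) with hda | hda
        · left
          have : a = wmin := by
            apply umin a ha
            intro j hj hja
            have := h1 j hj hja
            nlinarith
          subst this
          rw [hymin, if_neg (not_lt.mpr hda.le)]
        · right
          have : a = wmax := by
            apply umax a ha
            intro j hj hja
            exact (pos_iff_pos_of_mul_pos (h1 j hj hja)).1 hda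
          subst this
          rw [hymax, if_pos hda]
    · rintro (h | h)
      · rw [hymin] at h
        split_ifs at h with hdw
        · rw [h]
          have := (hA wmin hwminc).2 (fun j hj hjw => mul_pos hdw (hmin' j hj hjw))
          exact ⟨this.1, Or.inl this.2⟩
        · rw [h]
          have hdw' : d wmin < 0 := lt_of_le_of_ne (not_lt.mp hdw) (hd wmin hwminc)
          have := (hB wmin hwminc).2 (fun j hj hjw => by
            have := hmin' j hj hjw
            nlinarith)
          exact ⟨this.1, Or.inr this.2⟩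
      · rw [hymax] at h
        split_ifs at h with hdw
        · rw [h]
          have := (hB wmax hwmaxc).2 (fun j hj hjw => mul_pos hdw (hmax' j hj hjw))
          exact ⟨this.1, Or.inr this.2⟩
        · rw [h]
          have hdw' : d wmax < 0 := lt_of_le_of_ne (not_lt.mp hdw) (hd wmax hwmaxc)
          have := (hA wmax hwmaxc).2 (fun j hj hjw => by
            have := hmax' j hj hjw
            nlinarith)
          exact ⟨this.1, Or.inl this.2⟩
  rw [hends, card_pair hne]

end Vale.Agent.P040.Lab
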