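import Vale.Agent.P040.Lab.Defs

/-!
# The two walls at a level vertex are realizable
-/

namespace Vale.Agent.P040.Lab

open Finset

variable {ι : Type*} [Fintype ι] [DecidableEq ι] {v : ι → V3} {k : ℕ}

private theorem small_one78 (α β : ℝ) (h : α ≠ 0) :
    ∃ δ : ℝ, 0 < δ ∧ ∀ t : ℝ, |t| ≤ δ → 0 < α * (α + t * β) := by
  have hA : 0 < |α| := abs_pos.2 h
  have hB : 0 ≤ |β| := abs_nonneg β
  refine ⟨|α| / (2 * (|β| + 1)), by positivity, ?_⟩
  intro t ht
  set δ := |α| / (2 * (|β| + 1)) with hδ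
  have hδ0 : 0 < δ := by positivity
  have e1 : δ * (2 * (|β| + 1)) = |α| := by
    rw [hδ]
    field_simp
  have h1 : |t * α * β| ≤ δ * |α| * |β| := by
    rw [abs_mul, abs_mul]
    gcongr
  have h2 : δ * |β| * 2 ≤ |α| := by nlinarith
  have h3 : δ * |α| * |β| ≤ |α| * |α| / 2 := by nlinarith
  have h4 : -(δ * |α| * |β|) ≤ t * α * β := by
    have := neg_abs_le (t * α * β)
    linarith
  have h5 : |α| * |α| = α * α := abs_mul_abs_self α
  have h6 : 0 < |α| * |α| := by positivity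
  nlinarith

/-- [C0] small perturbations keep finitely many signs -/
theorem exists_small (s : Finset ι) (α β : ι → ℝ) (h : ∀ j ∈ s, α j ≠ 0) :
    ∃ δ : ℝ, 0 < δ ∧ ∀ j ∈ s, ∀ t : ℝ, |t| ≤ δ → 0 < α j * (α j + t * β j) := by
  induction s using Finset.induction_on with
  | empty => exact ⟨1, one_pos, fun j hj => absurd hj (Finset.notMem_empty j)⟩
  | insert a s ha ih =>
    obtain ⟨δ1, hδ1, h1⟩ := ih (fun j hj => h j (Finset.mem_insert_of_mem hj))
    obtain ⟨δ2, hδ2, h2⟩ := small_one78 (α a) (β a) (h a (Finset.mem_insert_self a s))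
    refine ⟨min δ1 δ2, lt_min hδ1 hδ2, ?_⟩
    intro j hj t ht
    rcases Finset.mem_insert.1 hj with rfl | hj
    · exact h2 t (ht.trans (min_le_right _ _))
    · exact h1 j hj t (ht.trans (min_le_left _ _))

private theorem real_aux78 (Y Z : V3) (p o : ι) (h1 : dot Y (v p) = 0) (h2 : dot Z (v p) = 0)
    (h3 : dot Y (v o) = 0) (h4 : dot Z (v o) ≠ 0)
    (h5 : ∀ j, j ≠ p → j ≠ o → dot Y (v j) ≠ 0) (ε : ℝ) (hε : ε ≠ 0) :
    ∃ n : V3, dot n (v p) = 0 ∧ 0 < ε * dot n (v o) ∧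
      ∀ j, j ≠ p → j ≠ o → 0 < dot Y (v j) * dot n (v j) := by
  obtain ⟨δ, hδ, hs⟩ := exists_small (univ.filter fun j => j ≠ p ∧ j ≠ o)
    (fun j => dot Y (v j)) (fun j => dot Z (v j)) (by
      intro j hj
      have := (Finset.mem_filter.1 hj).2
      exact h5 j this.1 this.2)
  have key : ∀ (t : ℝ) (w : V3),
      dot (Y.1 + t * Z.1, Y.2.1 + t * Z.2.1, Y.2.2 + t * Z.2.2) w = dot Y w + t * dot Z w := by
    intro t w
    unfold dot
    ring
  have hne : ε * dot Z (v o) ≠ 0 := mul_ne_zero hε h4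
  rcases lt_or_gt_of_ne hne with hneg | hpos
  · refine ⟨(Y.1 + (-δ) * Z.1, Y.2.1 + (-δ) * Z.2.1, Y.2.2 + (-δ) * Z.2.2), ?_, ?_, ?_⟩
    · rw [key, h1, h2]; ring
    · rw [key, h3]
      nlinarith
    · intro j hjp hjo
      rw [key]
      exact hs j (Finset.mem_filter.2 ⟨Finset.mem_univ _, hjp, hjo⟩) (-δ) (by rw [abs_neg, abs_of_pos hδ])
  · refine ⟨(Y.1 + δ * Z.1, Y.2.1 + δ * Z.2.1, Y.2.2 + δ * Z.2.2), ?_, ?_, ?_⟩
    · rw [key, h1, h2]; ring
    · rw [key, h3]
      nlinarith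
    · intro j hjp hjo
      rw [key]
      exact hs j (Finset.mem_filter.2 ⟨Finset.mem_univ _, hjp, hjo⟩) δ (by rw [abs_of_pos hδ])

private theorem third78 (hc : Fintype.card ι = 2 * k + 1) {a b : ι} (hab : a ≠ b) :
    ∃ c : ι, c ≠ a ∧ c ≠ b := by
  have h2 : 1 < Fintype.card ι := Fintype.one_lt_card_iff.2 ⟨a, b, hab⟩
  have h3 : ({a, b} : Finset ι).card < (univ : Finset ι).card := by
    rw [Finset.card_univ, Finset.card_pair hab]
    omega
  obtain ⟨c, _, hc'⟩ := Finset.exists_mem_notMem_of_card_lt_card h3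
  refine ⟨c, ?_, ?_⟩
  · rintro rfl
    exact hc' (by simp)
  · rintro rfl
    exact hc' (by simp)

private theorem dot_crs78 (a b c : V3) : dot (crs a b) c = det3 a b c := by
  unfold det3 dot crs
  ring

private theorem normsq_pos78 (hv : GenPos v) (hc : Fintype.card ι = 2 * k + 1) {a b : ι}
    (hab : a ≠ b) : 0 < dot (crs (v a) (v b)) (crs (v a) (v b)) := by
  obtain ⟨c, hca, hcb⟩ := third78 hc hab
  have h := hv a b c hab hca.symm hcb.symm
  rw [← dot_crs78] at h
  by_contra hcon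
  have h0 : dot (crs (v a) (v b)) (crs (v a) (v b)) = 0 := by
    have : 0 ≤ dot (crs (v a) (v b)) (crs (v a) (v b)) := by
      unfold dot
      have q1 := mul_self_nonneg (crs (v a) (v b)).1
      have q2 := mul_self_nonneg (crs (v a) (v b)).2.1
      have q3 := mul_self_nonneg (crs (v a) (v b)).2.2
      linarith
    linarith
  set Y := crs (v a) (v b) with hY
  have e1 : Y.1 = 0 ∧ Y.2.1 = 0 ∧ Y.2.2 = 0 := by
    unfold dot at h0
    refine ⟨?_, ?_, ?_⟩ <;> nlinarith [mul_self_nonneg Y.1, mul_self_nonneg Y.2.1, mul_self_nonneg Y.2.2]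
  apply h
  unfold dot
  rw [e1.1, e1.2.1, e1.2.2]
  ring

private theorem wall_gen78 (hv : GenPos v) {a b : ι} (hab : a ≠ b) (p o : ι)
    (hpo : (p = a ∧ o = b) ∨ (p = b ∧ o = a)) (hlev : LevelV v k (a, b))
    (n₁ n₂ : V3)
    (hn₁ : dot n₁ (v p) = 0 ∧ 0 < (1 : ℝ) * dot n₁ (v o) ∧
      ∀ j, j ≠ p → j ≠ o → 0 < dot (crs (v a) (v b)) (v j) * dot n₁ (v j))
    (hn₂ : dot n₂ (v p) = 0 ∧ 0 < (-1 : ℝ) * dot n₂ (v o) ∧
      ∀ j, j ≠ p → j ≠ o → 0 < dot (crs (v a) (v b)) (v j) * dot n₂ (v j)) :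
    Wall v k (p, if (posV v (a, b)).card = k then posV v (a, b) else insert o (posV v (a, b))) := by
  have hpne : p ≠ o := by
    rcases hpo with ⟨rfl, rfl⟩ | ⟨rfl, rfl⟩
    · exact hab
    · exact hab.symm
  have hmem : ∀ j, j ∈ posV v (a, b) ↔ 0 < dot (crs (v a) (v b)) (v j) := by
    intro j
    unfold posV
    rw [Finset.mem_filter, dot_crs78]
    simp
  have hYp : dot (crs (v a) (v b)) (v p) = 0 := by
    rcases hpo with ⟨rfl, rfl⟩ | ⟨rfl, rfl⟩ <;> (unfold dot crs; ring)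
  have hYo : dot (crs (v a) (v b)) (v o) = 0 := by
    rcases hpo with ⟨rfl, rfl⟩ | ⟨rfl, rfl⟩ <;> (unfold dot crs; ring)
  have hp : p ∉ posV v (a, b) := by
    rw [hmem, hYp]
    exact lt_irrefl 0
  have ho : o ∉ posV v (a, b) := by
    rw [hmem, hYo]
    exact lt_irrefl 0
  have hne : ∀ j, j ≠ p → j ≠ o → dot (crs (v a) (v b)) (v j) ≠ 0 := by
    intro j hjp hjo
    rw [dot_crs78]
    rcases hpo with ⟨rfl, rfl⟩ | ⟨rfl, rfl⟩
    · exact hv _ _ j hab hjp.symm hjo.symm
    · exact hv _ _ j hab hjo.symm hjp.symm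
  by_cases hk : (posV v (a, b)).card = k
  · rw [if_pos hk]
    refine ⟨hk, n₂, hn₂.1, hp, ?_, ?_⟩
    · intro j hj
      have hjp : j ≠ p := fun h => hp (h ▸ hj)
      have hjo : j ≠ o := fun h => ho (h ▸ hj)
      have h1 := hn₂.2.2 j hjp hjo
      have h2 := (hmem j).1 hj
      exact (pos_iff_pos_of_mul_pos h1).1 h2
    · intro j hjp hj
      by_cases hjo : j = o
      · rw [hjo]
        have := hn₂.2.1
        linarith
      · have h1 := hn₂.2.2 j hjp hjo
        have h2 : ¬ 0 < dot (crs (v a) (v b)) (v j) := fun h => hj ((hmem j).2 h)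
        have h3 : dot (crs (v a) (v b)) (v j) < 0 :=
          lt_of_le_of_ne (not_lt.1 h2) (hne j hjp hjo)
        exact (neg_iff_neg_of_mul_pos h1).1 h3
  · rw [if_neg hk]
    have hk' : (posV v (a, b)).card + 1 = k := by
      rcases hlev.2 with h | h
      · exact absurd h hk
      · exact h
    refine ⟨by simp only []; rw [Finset.card_insert_of_notMem ho]; exact hk', n₁, hn₁.1, ?_, ?_, ?_⟩
    · simp only [Finset.mem_insert, not_or]
      exact ⟨hpne, hp⟩
    · intro j hj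
      rcases Finset.mem_insert.1 hj with rfl | hj
      · have := hn₁.2.1
        linarith
      · have hjp : j ≠ p := fun h => hp (h ▸ hj)
        have hjo : j ≠ o := fun h => ho (h ▸ hj)
        have h1 := hn₁.2.2 j hjp hjo
        have h2 := (hmem j).1 hj
        exact (pos_iff_pos_of_mul_pos h1).1 h2
    · intro j hjp hj
      simp only [Finset.mem_insert, not_or] at hj
      have h1 := hn₁.2.2 j hjp hj.1
      have h2 : ¬ 0 < dot (crs (v a) (v b)) (v j) := fun h => hj.2 ((hmem j).2 h)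
      have h3 : dot (crs (v a) (v b)) (v j) < 0 :=
        lt_of_le_of_ne (not_lt.1 h2) (hne j hjp hj.1)
      exact (neg_iff_neg_of_mul_pos h1).1 h3

/-- [C1] With `y = v a × v b` and `n = y + t (v a × y)`: `n ⟂ v a`, `dot n (v b) = - t |y|²`,
`dot n (v j) = det3 (v a) (v b) (v j) + t * (…)`.  Take `t = δ` if `#posV = k` (then `b` is negative),
`t = -δ` otherwise (`b` positive), `δ` from `exists_small`.  `y ≠ 0` because there is a third index
(`card ι = 2k+1`, `a ≠ b`) and `GenPos`. -/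
theorem wall_e1 (hv : GenPos v) (hc : Fintype.card ι = 2 * k + 1) {y : ι × ι}
    (hy : LevelV v k y) : Wall v k (e1 v k y) := by
  obtain ⟨a, b⟩ := y
  have hab : a ≠ b := hy.1
  have hN := normsq_pos78 hv hc hab
  have h1 : dot (crs (v a) (v b)) (v a) = 0 := by unfold dot crs; ring
  have h2 : dot (crs (v a) (crs (v a) (v b))) (v a) = 0 := by unfold dot crs; ring
  have h3 : dot (crs (v a) (v b)) (v b) = 0 := by unfold dot crs; ring
  have h4 : dot (crs (v a) (crs (v a) (v b))) (v b) ≠ 0 := by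
    have e : dot (crs (v a) (crs (v a) (v b))) (v b) = - dot (crs (v a) (v b)) (crs (v a) (v b)) := by
      unfold dot crs; ring
    rw [e]
    exact (neg_lt_zero.2 hN).ne
  have h5 : ∀ j, j ≠ a → j ≠ b → dot (crs (v a) (v b)) (v j) ≠ 0 := by
    intro j hja hjb
    rw [dot_crs78]
    exact hv _ _ j hab hja.symm hjb.symm
  obtain ⟨n₁, hn₁⟩ := real_aux78 (v := v) _ _ a b h1 h2 h3 h4 h5 1 one_ne_zero
  obtain ⟨n₂, hn₂⟩ := real_aux78 (v := v) _ _ a b h1 h2 h3 h4 h5 (-1) (by norm_num)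
  exact wall_gen78 hv hab a b (Or.inl ⟨rfl, rfl⟩) hy n₁ n₂ hn₁ hn₂

/-- [C2] same as `wall_e1` with `n = y + t (v b × y)`, `dot n (v a) = t |y|²` -/
theorem wall_e2 (hv : GenPos v) (hc : Fintype.card ι = 2 * k + 1) {y : ι × ι}
    (hy : LevelV v k y) : Wall v k (e2 v k y) := by
  obtain ⟨a, b⟩ := y
  have hab : a ≠ b := hy.1
  have hN := normsq_pos78 hv hc hab
  have h1 : dot (crs (v a) (v b)) (v b) = 0 := by unfold dot crs; ring
  have h2 : dot (crs (v b) (crs (v a) (v b))) (v b) = 0 := by unfold dot crs; ring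
  have h3 : dot (crs (v a) (v b)) (v a) = 0 := by unfold dot crs; ring
  have h4 : dot (crs (v b) (crs (v a) (v b))) (v a) ≠ 0 := by
    have e : dot (crs (v b) (crs (v a) (v b))) (v a) = dot (crs (v a) (v b)) (crs (v a) (v b)) := by
      unfold dot crs; ring
    rw [e]
    exact hN.ne'
  have h5 : ∀ j, j ≠ b → j ≠ a → dot (crs (v a) (v b)) (v j) ≠ 0 := by
    intro j hjb hja
    rw [dot_crs78]
    exact hv _ _ j hab hja.symm hjb.symm
  obtain ⟨n₁, hn₁⟩ := real_aux78 (v := v) _ _ b a h1 h2 h3 h4 h5 1 one_ne_zero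
  obtain ⟨n₂, hn₂⟩ := real_aux78 (v := v) _ _ b a h1 h2 h3 h4 h5 (-1) (by norm_num)
  exact wall_gen78 hv hab b a (Or.inr ⟨rfl, rfl⟩) hy n₁ n₂ hn₁ hn₂

/-- [C3] the two walls at a level vertex differ by an elementary move -/
theorem move_e (hv : GenPos v) (hc : Fintype.card ι = 2 * k + 1) {y : ι × ι}
    (hy : LevelV v k y) : Move v k (e1 v k y) (e2 v k y) := by
  classical
  refine ⟨wall_e1 hv hc hy, wall_e2 hv hc hy, hy.1, ?_⟩
  by_cases h : (posV v y).card = k
  · left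
    simp only [e1, e2, if_pos h]
  · right
    have h2 : y.2 ∉ posV v y := by
      intro hm
      have h3 : 0 < det3 (v y.1) (v y.2) (v y.2) := by
        simpa [posV] using hm
      have h4 : det3 (v y.1) (v y.2) (v y.2) = 0 := by
        unfold det3 dot crs
        ring
      rw [h4] at h3
      exact lt_irrefl _ h3
    simp only [e1, e2, if_neg h]
    refine ⟨Finset.mem_insert_self _ _, ?_⟩
    rw [Finset.erase_insert h2]

/-- [C4] moves are symmetric -/
theorem move_symm {x x' : ι × Finset ι} (h : Move v k x x') : Move v k x' x := by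
  obtain ⟨h1, h2, h3, h4⟩ := h
  refine ⟨h2, h1, h3.symm, ?_⟩
  rcases h4 with h4 | ⟨h4, h5⟩
  · left
    exact h4.symm
  · right
    obtain ⟨_, n, _, hn, _⟩ := h1
    have h6 : x.1 ∉ x.2.erase x'.1 := fun hm => hn (Finset.mem_of_mem_erase hm)
    rw [h5]
    refine ⟨Finset.mem_insert_self _ _, ?_⟩
    rw [Finset.erase_insert h6, Finset.insert_erase h4]

end Vale.Agent.P040.Lab
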