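import Vale.Agent.P040.Lab.Parity
import Vale.Agent.P040.Lab.Real
import Vale.Agent.P040.Lab.Ends
import Vale.Agent.P040.Lab.Count
import Vale.Agent.P040.Lab.Chain

/-!
# The labelling lemma
-/

namespace Vale.Agent.P040.Lab

open Finset

variable {ι : Type*} [Fintype ι] [DecidableEq ι] {v : ι → V3} {k : ℕ}

/-- [J1] induction on `EqvGen`, with `move_e`, `move_symm` (`Relation.ReflTransGen.symmetric`) -/
theorem chain_of_eqvGen (hv : GenPos v) (hc : Fintype.card ι = 2 * k + 1) {x x' : ι × Finset ι}
    (h : Relation.EqvGen (fun a b => ∃ y, LevelV v k y ∧ e1 v k y = a ∧ e2 v k y = b) x x') :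
    Relation.ReflTransGen (Move v k) x x' := by
  induction h with
  | rel a b hab =>
    obtain ⟨y, hy, rfl, rfl⟩ := hab
    exact Relation.ReflTransGen.single (move_e hv hc hy)
  | refl a => exact Relation.ReflTransGen.refl
  | symm a b _ ih =>
    clear * - ih
    induction ih with
    | refl => exact Relation.ReflTransGen.refl
    | tail _ hbc ih2 => exact Relation.ReflTransGen.head (move_symm hbc) ih2
  | trans a b c _ _ ih1 ih2 => exact ih1.trans ih2

lemma det3_swap23 (p a b : V3) : det3 p b a = - det3 p a b := by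
  unfold det3 dot crs; ring

open Classical in
/-- [J2] STEP 2: some wall is connected to its antipode.  Apply `parity_abstract` with
`X = univ.filter (Wall v k)`, `Y = univ.filter (LevelV v k)`, `e1 v k`, `e2 v k`, `tau`, `Prod.swap`,
`sg y := 0 < det3 p (v y.1) (v y.2)` (`p` from `exists_genP`).  `Y.filter (…) = ends v k x`
(`filter_filter`), so `hdeg` is `card_ends`, and `hmark` is `mark_iff` + `card_pencil_mod`. -/
theorem exists_chain (hv : GenPos v) (hc : Fintype.card ι = 2 * k + 1) (hk : 1 ≤ k) :
    ∃ x : ι × Finset ι, Wall v k x ∧ Relation.ReflTransGen (Move v k) x (tau x) := by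
  obtain ⟨p, hp⟩ := exists_genP hv hc
  have hends : ∀ x : ι × Finset ι,
      ((univ.filter (LevelV v k)).filter fun y => e1 v k y = x ∨ e2 v k y = x) = ends v k x := by
    intro x
    unfold ends
    rw [filter_filter]
  have hends2 : ∀ x : ι × Finset ι,
      ((univ.filter (LevelV v k)).filter fun y => (e1 v k y = x ∨ e2 v k y = x) ∧
        0 < det3 p (v y.1) (v y.2)) =
      (ends v k x).filter fun y => 0 < det3 p (v y.1) (v y.2) := by
    intro x
    unfold ends
    rw [filter_filter, filter_filter]
    apply filter_congr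
    intro y _
    tauto
  obtain ⟨x, hxX, hx⟩ := parity_abstract (univ.filter (Wall v k)) (univ.filter (LevelV v k))
    (e1 v k) (e2 v k) tau Prod.swap (fun y => 0 < det3 p (v y.1) (v y.2))
    (fun y hy => by
      rw [mem_filter] at hy ⊢
      exact ⟨mem_univ _, wall_e1 hv hc hy.2⟩)
    (fun y hy => by
      rw [mem_filter] at hy ⊢
      exact ⟨mem_univ _, wall_e2 hv hc hy.2⟩)
    (fun x hx => by
      rw [mem_filter] at hx ⊢
      exact ⟨mem_univ _, wall_tau hc hx.2⟩)
    (fun y hy => by
      rw [mem_filter] at hy ⊢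
      exact ⟨mem_univ _, levelV_swap hv hc hy.2⟩)
    (fun x hx => by
      rw [mem_filter] at hx
      obtain ⟨_, n, hn⟩ := hx.2
      exact tau_tau hn.2.1)
    (fun y _ => Prod.swap_swap y)
    (fun y hy => by
      rw [mem_filter] at hy
      intro h
      have := congrArg Prod.fst h
      exact hy.2.1 this)
    (fun x hx => by
      rw [mem_filter] at hx
      rw [hends]
      exact card_ends hv hc hk hx.2)
    (fun y hy => by
      rw [mem_filter] at hy
      exact e1_swap hv hc hy.2)
    (fun y hy => by
      rw [mem_filter] at hy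
      exact e2_swap hv hc hy.2)
    (fun y hy => by
      rw [mem_filter] at hy
      have h1 : det3 p (v y.swap.1) (v y.swap.2) = - det3 p (v y.1) (v y.2) := by
        simp only [Prod.fst_swap, Prod.snd_swap]
        exact det3_swap23 _ _ _
      have h2 := hp y.1 y.2 hy.2.1
      simp only [h1]
      constructor
      · intro h h'; linarith
      · intro h
        rcases lt_or_gt_of_ne h2 with h3 | h3
        · linarith
        · exact absurd h3 h)
    (by
      have : ((univ.filter (Wall v k)).filter fun x =>
          ((univ.filter (LevelV v k)).filter fun y => (e1 v k y = x ∨ e2 v k y = x) ∧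
            0 < det3 p (v y.1) (v y.2)).card = 1) =
          ((univ : Finset (ι × Finset ι)).filter fun x =>
            Wall v k x ∧ (x.2 = posP v p x.1 ∨ x.2 = negP v p x.1)) := by
        rw [filter_filter]
        apply filter_congr
        intro x _
        constructor
        · rintro ⟨hw, h⟩
          rw [hends2] at h
          exact ⟨hw, (mark_iff hv hc hk hp hw).1 h⟩
        · rintro ⟨hw, h⟩
          rw [hends2]
          exact ⟨hw, (mark_iff hv hc hk hp hw).2 h⟩
      rw [this]
      exact card_pencil_mod hc hk hp)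
  rw [mem_filter] at hxX
  refine ⟨x, hxX.2, chain_of_eqvGen hv hc ?_⟩
  refine Relation.EqvGen.mono ?_ _ _ hx
  rintro a b ⟨y, hy, h1, h2⟩
  rw [mem_filter] at hy
  exact ⟨y, hy.2, h1, h2⟩

/-- [J3] the case `k = 0`: `σ = 1`, `n = 0` -/
theorem lab_zero (v : Fin (2 * 0 + 1) → V3) :
    ∃ (σ : Equiv.Perm (Fin (2 * 0 + 1))) (n : ℕ → V3),
      IsLab 0 (fun i => v (σ (Fin.ofNat (2 * 0 + 1) i))) n := by
  refine ⟨1, fun _ => (0, 0, 0), ?_⟩
  constructor
  · intro i _
    unfold dot
    simp
  · intro i hi j hj hij
    exfalso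
    omega
  · intro i hi j hj
    exfalso
    omega
  · intro i _
    apply le_of_eq
    rw [Finset.card_eq_zero]
    apply Finset.filter_eq_empty_iff.2
    intro j _
    unfold dot
    simp
  · intro i _ j hij hj
    exfalso
    omega
  · intro i _ _
    apply le_of_eq
    rw [Finset.card_eq_zero]
    apply Finset.filter_eq_empty_iff.2
    intro j _
    unfold dot
    simp

/-- THE LABELLING LEMMA -/
theorem exists_lab (k : ℕ) (v : Fin (2 * k + 1) → V3) (hv : GenPos v) :
    ∃ (σ : Equiv.Perm (Fin (2 * k + 1))) (n : ℕ → V3),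
      IsLab k (fun i => v (σ (Fin.ofNat (2 * k + 1) i))) n := by
  rcases Nat.eq_zero_or_pos k with rfl | hk
  · exact lab_zero v
  · obtain ⟨x, hx, h⟩ := exists_chain (k := k) hv (by simp) hk
    exact lab_of_chain k v x hx h

end Vale.Agent.P040.Lab
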