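import Vale.Agent.P040.Lab.Defs
import Vale.Agent.P040.Sph28.OddHalving

/-!
# The number of halving circles of a pencil is odd; generic vectors
-/

namespace Vale.Agent.P040.Lab

open Finset

private theorem odd_flips_aux (f : ℕ → Bool) (n : ℕ) :
    (Odd ((range n).filter fun t => f t ≠ f (t + 1)).card ↔ f 0 ≠ f n) := by
  induction n with
  | zero => simp
  | succ n ih =>
    rw [range_add_one, filter_insert]
    split_ifs with h
    · rw [card_insert_of_notMem (by simp), Nat.odd_add_one, ih]
      cases h0 : f 0 <;> cases h1 : f n <;> cases h2 : f (n+1) <;> simp_all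
    · rw [ih]
      cases h0 : f 0 <;> cases h1 : f n <;> cases h2 : f (n+1) <;> simp_all

/-- [G1] induction on `n` -/
theorem odd_flips (f : ℕ → Bool) (n : ℕ) (h : f 0 ≠ f n) :
    Odd ((range n).filter fun t => f t ≠ f (t + 1)).card := by
  exact (odd_flips_aux f n).2 h

/-- the level just before the position `t` -/
def lev (m : ℕ) (ε : ℕ → Bool) (t : ℕ) : ℕ :=
  ((range m).filter fun u => ε u = true ∧ t ≤ u).card +
    ((range m).filter fun u => ε u = false ∧ u < t).card

/-- out-degree of `c` in the tournament `c → u` iff (`ε c = ε u` iff `c < u`) -/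
def outN (m : ℕ) (ε : ℕ → Bool) (c : ℕ) : ℕ :=
  ((range m).filter fun u => u ≠ c ∧ (ε c = ε u ↔ c < u)).card

/-- [G2] -/
theorem lev_zero_add (m : ℕ) (ε : ℕ → Bool) : lev m ε 0 + lev m ε m = m := by
  unfold lev
  have e1 : ((range m).filter fun u => ε u = true ∧ 0 ≤ u) = (range m).filter fun u => ε u = true := by
    apply Finset.filter_congr
    intro u _
    simp
  have e2 : ((range m).filter fun u => ε u = false ∧ u < 0) = ∅ := by
    apply Finset.filter_eq_empty_iff.2
    intro u _
    simp
  have e3 : ((range m).filter fun u => ε u = true ∧ m ≤ u) = ∅ := by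
    apply Finset.filter_eq_empty_iff.2
    intro u hu
    have := Finset.mem_range.1 hu
    intro h
    omega
  have e4 : ((range m).filter fun u => ε u = false ∧ u < m) = (range m).filter fun u => ¬ ε u = true := by
    apply Finset.filter_congr
    intro u hu
    have := Finset.mem_range.1 hu
    simp [this]
  rw [e1, e2, e3, e4]
  have := Finset.card_filter_add_card_filter_not (s := range m) (fun u => ε u = true)
  rw [Finset.card_range] at this
  simp only [Finset.card_empty]
  omega

/-- [G3] -/
theorem lev_succ_true {m : ℕ} {ε : ℕ → Bool} {t : ℕ} (ht : t < m) (h : ε t = true) :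
    lev m ε t = lev m ε (t + 1) + 1 := by
  unfold lev
  have e1 : ((range m).filter fun u => ε u = true ∧ t ≤ u) =
      insert t ((range m).filter fun u => ε u = true ∧ t + 1 ≤ u) := by
    ext u
    simp only [Finset.mem_filter, Finset.mem_range, Finset.mem_insert]
    constructor
    · rintro ⟨h1, h2, h3⟩
      by_cases h4 : u = t
      · exact Or.inl h4
      · exact Or.inr ⟨h1, h2, by omega⟩
    · rintro (rfl | ⟨h1, h2, h3⟩)
      · exact ⟨ht, h, le_rfl⟩
      · exact ⟨h1, h2, by omega⟩
  have e2 : ((range m).filter fun u => ε u = false ∧ u < t + 1) =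
      (range m).filter fun u => ε u = false ∧ u < t := by
    apply Finset.filter_congr
    intro u _
    constructor
    · rintro ⟨h1, h2⟩
      refine ⟨h1, ?_⟩
      by_contra h3
      have : u = t := by omega
      rw [this, h] at h1
      exact Bool.noConfusion h1
    · rintro ⟨h1, h2⟩
      exact ⟨h1, by omega⟩
  rw [e1, e2, Finset.card_insert_of_notMem]
  · omega
  · simp

/-- [G3'] -/
theorem lev_succ_false {m : ℕ} {ε : ℕ → Bool} {t : ℕ} (ht : t < m) (h : ε t = false) :
    lev m ε (t + 1) = lev m ε t + 1 := by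
  unfold lev
  have e1 : ((range m).filter fun u => ε u = false ∧ u < t + 1) =
      insert t ((range m).filter fun u => ε u = false ∧ u < t) := by
    ext u
    simp only [Finset.mem_filter, Finset.mem_range, Finset.mem_insert]
    constructor
    · rintro ⟨h1, h2, h3⟩
      by_cases h4 : u = t
      · exact Or.inl h4
      · exact Or.inr ⟨h1, h2, by omega⟩
    · rintro (rfl | ⟨h1, h2, h3⟩)
      · exact ⟨ht, h, by omega⟩
      · exact ⟨h1, h2, by omega⟩
  have e2 : ((range m).filter fun u => ε u = true ∧ t + 1 ≤ u) =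
      (range m).filter fun u => ε u = true ∧ t ≤ u := by
    apply Finset.filter_congr
    intro u _
    constructor
    · rintro ⟨h1, h2⟩
      exact ⟨h1, by omega⟩
    · rintro ⟨h1, h2⟩
      refine ⟨h1, ?_⟩
      by_contra h3
      have : u = t := by omega
      rw [this, h] at h1
      exact Bool.noConfusion h1
  rw [e1, e2, Finset.card_insert_of_notMem]
  · omega
  · simp

/-- [G4] -/
theorem outN_true {m : ℕ} {ε : ℕ → Bool} {c : ℕ} (hc : c < m) (h : ε c = true) :
    outN m ε c = lev m ε (c + 1) := by
  unfold outN lev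
  simp only [card_filter]
  rw [← sum_add_distrib]
  refine sum_congr rfl fun u _ => ?_
  rcases lt_trichotomy u c with hu | hu | hu
  · have h1 : u ≠ c := hu.ne
    have h2 : ¬ c < u := by omega
    have h3 : ¬ c + 1 ≤ u := by omega
    have h4 : u < c + 1 := by omega
    cases hε : ε u <;> simp [h, h1, h2, h3, h4]
  · subst hu
    simp [h]
  · have h1 : u ≠ c := hu.ne'
    have h3 : c + 1 ≤ u := by omega
    have h4 : ¬ u < c + 1 := by omega
    cases hε : ε u <;> simp [h, h1, hu, h3, h4]

/-- [G4'] -/
theorem outN_false {m : ℕ} {ε : ℕ → Bool} {c : ℕ} (hc : c < m) (h : ε c = false) :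
    outN m ε c + lev m ε c + 1 = m := by
  have h1 : ((range m).filter fun u => u = c).card = 1 := by
    rw [filter_eq', if_pos (mem_range.mpr hc), card_singleton]
  have hm : ∑ _u ∈ range m, 1 = m := by simp
  have key : outN m ε c + lev m ε c + ((range m).filter fun u => u = c).card
      = ∑ _u ∈ range m, 1 := by
    unfold outN lev
    simp only [card_filter]
    rw [← sum_add_distrib, ← sum_add_distrib, ← sum_add_distrib]
    refine sum_congr rfl fun u _ => ?_
    rcases lt_trichotomy u c with hu | hu | hu
    · have h1 : u ≠ c := hu.ne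
      have h2 : ¬ c < u := by omega
      have h3 : ¬ c ≤ u := by omega
      cases hε : ε u <;> simp [h, h1, h2, h3, hu]
    · subst hu
      simp [h]
    · have h1 : u ≠ c := hu.ne'
      have h3 : c ≤ u := by omega
      have h4 : ¬ u < c := by omega
      cases hε : ε u <;> simp [h, h1, hu, h3, h4]
  rw [h1, hm] at key
  exact key

/-- [G5] `outN c = k` iff `decide (lev c ≤ k) ≠ decide (lev (c+1) ≤ k)` (G3, G4); then G1, G2 -/
theorem odd_outN (k : ℕ) (ε : ℕ → Bool) :
    Odd ((range (2 * k + 1)).filter fun c => outN (2 * k + 1) ε c = k).card := by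
  have h0 := lev_zero_add (2 * k + 1) ε
  have hf : (decide (lev (2 * k + 1) ε 0 ≤ k)) ≠ decide (lev (2 * k + 1) ε (2 * k + 1) ≤ k) := by
    intro h
    rw [decide_eq_decide] at h
    omega
  have h1 := odd_flips (fun t => decide (lev (2 * k + 1) ε t ≤ k)) (2 * k + 1) hf
  convert h1 using 2
  apply filter_congr
  intro c hc
  rw [mem_range] at hc
  simp only [ne_eq, decide_eq_decide]
  cases h : ε c
  · have a1 := lev_succ_false hc h
    have a2 := outN_false hc h
    omega
  · have a1 := lev_succ_true hc h
    have a2 := outN_true hc h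
    omega

variable {ι : Type*} [Fintype ι] [DecidableEq ι]

open Classical in
/-- [G6] transfer of G5 along the enumeration of `ι` by increasing `κ` (an equivalence
`e : Fin (2k+1) ≃ ι` with `κ ∘ e` strictly monotone, e.g. from `Tuple.sort` after
`Fintype.equivFinOfCardEq`, or `Finset.orderIsoOfFin` for the image of `κ`) -/
theorem odd_of_key {k : ℕ} (hc : Fintype.card ι = 2 * k + 1) (κ : ι → ℝ)
    (hκ : Function.Injective κ) (ε : ι → Bool) :
    Odd (univ.filter fun c =>
      (univ.filter fun u => u ≠ c ∧ (ε c = ε u ↔ κ c < κ u)).card = k).card := by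
  have : Nonempty ι := Fintype.card_pos_iff.mp (by omega)
  set rk : ι → ℕ := fun c => (univ.filter fun u => κ u < κ c).card with hrk
  have rk_le : ∀ c u, κ c ≤ κ u → rk c ≤ rk u := by
    intro c u h
    apply Finset.card_le_card
    intro x hx
    simp only [mem_filter, mem_univ, true_and] at hx ⊢
    exact lt_of_lt_of_le hx h
  have rk_lt : ∀ c u, κ c < κ u → rk c < rk u := by
    intro c u h
    apply Finset.card_lt_card
    refine ⟨?_, ?_⟩
    · intro x hx
      simp only [mem_filter, mem_univ, true_and] at hx ⊢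
      exact lt_trans hx h
    · intro hsub
      have h2 : c ∈ univ.filter fun x => κ x < κ c := hsub (by simp [h])
      simp at h2
  have rk_iff : ∀ c u, rk c < rk u ↔ κ c < κ u := by
    intro c u
    constructor
    · intro h
      by_contra hn
      exact absurd (rk_le u c (not_lt.mp hn)) (not_le.mpr h)
    · exact rk_lt c u
  have rk_inj : Function.Injective rk := by
    intro c u h
    apply hκ
    apply le_antisymm
    · by_contra hn
      have h2 := rk_lt u c (not_le.mp hn)
      omega
    · by_contra hn
      have h2 := rk_lt c u (not_le.mp hn)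
      omega
  have rk_bd : ∀ c, rk c < 2 * k + 1 := by
    intro c
    have h1 : rk c < (univ : Finset ι).card := by
      apply Finset.card_lt_card
      refine ⟨Finset.filter_subset _ _, ?_⟩
      intro hsub
      have h2 : c ∈ univ.filter fun x => κ x < κ c := hsub (mem_univ c)
      simp at h2
    rwa [Finset.card_univ, hc] at h1
  have rk_surj : ∀ t, t < 2 * k + 1 → ∃ c, rk c = t := by
    have himg : (univ.image rk) = range (2 * k + 1) := by
      apply Finset.eq_of_subset_of_card_le
      · intro t ht
        obtain ⟨c, _, rfl⟩ := Finset.mem_image.mp ht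
        exact mem_range.mpr (rk_bd c)
      · rw [Finset.card_image_of_injective _ rk_inj, Finset.card_univ, hc, card_range]
    intro t ht
    have h1 : t ∈ univ.image rk := by rw [himg]; exact mem_range.mpr ht
    obtain ⟨c, _, h⟩ := Finset.mem_image.mp h1
    exact ⟨c, h⟩
  have transfer : ∀ (P : ι → Prop) (p : ℕ → Prop) [DecidablePred P] [DecidablePred p],
      (∀ u, P u ↔ p (rk u)) → (univ.filter P).card = ((range (2 * k + 1)).filter p).card := by
    intro P p _ _ hPp
    apply Finset.card_bij (fun u _ => rk u)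
    · intro u hu
      simp only [mem_filter, mem_univ, true_and] at hu
      simp only [mem_filter, mem_range]
      exact ⟨rk_bd u, (hPp u).mp hu⟩
    · intro a _ b _ h
      exact rk_inj h
    · intro t ht
      simp only [mem_filter, mem_range] at ht
      obtain ⟨c, rfl⟩ := rk_surj t ht.1
      exact ⟨c, by simp only [mem_filter, mem_univ, true_and]; exact (hPp c).mpr ht.2, rfl⟩
  choose! g hg using rk_surj
  set ε' : ℕ → Bool := fun t => ε (g t) with hε'
  have hε : ∀ c, ε' (rk c) = ε c := by
    intro c
    have h1 : g (rk c) = c := rk_inj (hg (rk c) (rk_bd c))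
    simp only [hε', h1]
  have inner : ∀ c, (univ.filter fun u => u ≠ c ∧ (ε c = ε u ↔ κ c < κ u)).card
      = outN (2 * k + 1) ε' (rk c) := by
    intro c
    unfold outN
    apply transfer
    intro u
    rw [hε, hε, rk_iff]
    constructor
    · rintro ⟨h1, h2⟩
      exact ⟨fun h => h1 (rk_inj h), h2⟩
    · rintro ⟨h1, h2⟩
      exact ⟨fun h => h1 (by rw [h]), h2⟩
  have e : (univ.filter fun c =>
      (univ.filter fun u => u ≠ c ∧ (ε c = ε u ↔ κ c < κ u)).card = k).card
      = ((range (2 * k + 1)).filter fun t => outN (2 * k + 1) ε' t = k).card := by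
    apply transfer
    intro c
    rw [inner c]
  rw [e]
  exact odd_outN k ε'

/-- [G7] unfold everything; `ring` -/
theorem det_pencil (p N a b : V3) :
    det3 p N a * det3 p (crs p N) b - det3 p (crs p N) a * det3 p N b =
      dot (crs p N) (crs p N) * det3 p a b := by
  unfold det3 dot crs
  ring

/-- [I1] a vector off finitely many planes: try `N = (1, t, t ^ 2)`; `dot (a j) N` is a nonzero
polynomial of degree at most two in `t`, so only finitely many `t` are bad -/
theorem exists_dot_ne {κ : Type*} (s : Finset κ) (a : κ → V3) (h : ∀ j ∈ s, a j ≠ 0) :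
    ∃ N : V3, ∀ j ∈ s, dot (a j) N ≠ 0 := by
  classical
  have hne : ∀ j ∈ s, (Polynomial.C (a j).1 + Polynomial.C (a j).2.1 * Polynomial.X
      + Polynomial.C (a j).2.2 * Polynomial.X ^ 2 : Polynomial ℝ) ≠ 0 := by
    intro j hj h0
    apply h j hj
    have c0 := congrArg (fun q => Polynomial.coeff q 0) h0
    have c1 := congrArg (fun q => Polynomial.coeff q 1) h0
    have c2 := congrArg (fun q => Polynomial.coeff q 2) h0
    simp [Polynomial.coeff_X, Polynomial.coeff_C, Polynomial.coeff_X_pow] at c0 c1 c2
    ext <;> simp [*]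
  have hP : (∏ j ∈ s, (Polynomial.C (a j).1 + Polynomial.C (a j).2.1 * Polynomial.X
      + Polynomial.C (a j).2.2 * Polynomial.X ^ 2 : Polynomial ℝ)) ≠ 0 :=
    Finset.prod_ne_zero_iff.2 hne
  obtain ⟨t, ht⟩ : ∃ t : ℝ, Polynomial.eval t (∏ j ∈ s, (Polynomial.C (a j).1
      + Polynomial.C (a j).2.1 * Polynomial.X
      + Polynomial.C (a j).2.2 * Polynomial.X ^ 2 : Polynomial ℝ)) ≠ 0 := by
    by_contra hcon
    push Not at hcon
    apply hP
    apply Polynomial.funext
    intro t
    rw [hcon t, Polynomial.eval_zero]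
  rw [Polynomial.eval_prod, Finset.prod_ne_zero_iff] at ht
  refine ⟨(1, t, t ^ 2), fun j hj => ?_⟩
  have := ht j hj
  simp only [Polynomial.eval_add, Polynomial.eval_C, Polynomial.eval_mul, Polynomial.eval_X,
    Polynomial.eval_pow] at this
  unfold dot
  simpa using this

variable {v : ι → V3} {k : ℕ}

/-- [I2] there is a third index -/
theorem crs_ne_zero (hv : GenPos v) (hc : Fintype.card ι = 2 * k + 1) {a b : ι} (hab : a ≠ b) :
    crs (v a) (v b) ≠ 0 := by
  have h2 : ({a, b} : Finset ι).card = 2 := Finset.card_pair hab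
  have h3 : ({a, b} : Finset ι).card < Fintype.card ι := by
    have h4 : ({a, b} : Finset ι).card ≤ Fintype.card ι := Finset.card_le_univ _
    omega
  obtain ⟨c, hcm⟩ : ∃ c, c ∉ ({a, b} : Finset ι) := by
    by_contra hcon
    have hcon' : ∀ c, c ∈ ({a, b} : Finset ι) := fun c => by
      by_contra hc'
      exact hcon ⟨c, hc'⟩
    have : ({a, b} : Finset ι) = univ := Finset.eq_univ_iff_forall.2 hcon'
    rw [this, Finset.card_univ] at h3
    exact lt_irrefl _ h3
  simp only [Finset.mem_insert, Finset.mem_singleton, not_or] at hcm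
  intro h0
  have := hv c a b hcm.1 hcm.2 hab
  apply this
  unfold det3
  rw [h0]
  simp [dot]

/-- [I3] from I1 (index set `ι × ι`), I2; `det3 p x y = dot p (crs x y)` by definition -/
theorem exists_genP (hv : GenPos v) (hc : Fintype.card ι = 2 * k + 1) : ∃ p, GenP v p := by
  obtain ⟨N, hN⟩ := exists_dot_ne ((univ : Finset (ι × ι)).filter fun y => y.1 ≠ y.2)
    (fun y => crs (v y.1) (v y.2))
    (fun y hy => crs_ne_zero hv hc (by simpa using hy))
  refine ⟨N, fun a b hab => ?_⟩
  have h := hN (a, b) (by simpa using hab)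
  have e : det3 N (v a) (v b) = dot (crs (v a) (v b)) N := by
    unfold det3 dot
    ring
  rw [e]
  exact h

/-- [G8] a reference vector for the pencil of `p`: `det3 p N (v c) = dot (crs (v c) p) N`, and
`crs (v c) p ≠ 0` since `det3 p (v c) (v u) ≠ 0` for some `u ≠ c` -/
theorem exists_ref (hc : Fintype.card ι = 2 * k + 1) (hk : 1 ≤ k) {p : V3} (hp : GenP v p) :
    ∃ N : V3, ∀ c, det3 p N (v c) ≠ 0 := by
  have h0 : ∀ c ∈ (univ : Finset ι), crs (v c) p ≠ 0 := by
    intro c _ h
    have h1 : 1 < Fintype.card ι := by omega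
    obtain ⟨u, hu⟩ := Fintype.exists_ne_of_one_lt_card h1 c
    apply hp c u (Ne.symm hu)
    have h1 : (crs (v c) p).1 = 0 := by rw [h]; rfl
    have h2 : (crs (v c) p).2.1 = 0 := by rw [h]; rfl
    have h3 : (crs (v c) p).2.2 = 0 := by rw [h]; rfl
    simp only [crs] at h1 h2 h3
    unfold det3 dot crs
    simp only
    linear_combination (-(v u).1) * h1 - (v u).2.1 * h2 - (v u).2.2 * h3
  obtain ⟨N, hN⟩ := exists_dot_ne (univ : Finset ι) (fun c => crs (v c) p) h0
  refine ⟨N, fun c => ?_⟩
  have e : det3 p N (v c) = dot (crs (v c) p) N := by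
    unfold det3 dot crs
    simp only
    ring
  rw [e]
  exact hN c (mem_univ c)

/-- [G9] with `X c = det3 p N (v c)`, `Y c = det3 p (crs p N) (v c)`, `κ c = Y c / X c`,
`ε c = decide (0 < X c)`: by G7 `X c * X u * (κ u - κ c) = |p × N|² * det3 p (v c) (v u)` -/
theorem pencil_key {p N : V3} (hp : GenP v p) (hN : ∀ c, det3 p N (v c) ≠ 0) {c u : ι}
    (hcu : u ≠ c) :
    0 < det3 p (v c) (v u) ↔
      (decide (0 < det3 p N (v c)) = decide (0 < det3 p N (v u)) ↔
        det3 p (crs p N) (v c) / det3 p N (v c) < det3 p (crs p N) (v u) / det3 p N (v u)) := by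
  have hW : 0 < dot (crs p N) (crs p N) := by
    by_contra hcon
    apply hN c
    have h0 : dot (crs p N) (crs p N) =
        (crs p N).1 ^ 2 + (crs p N).2.1 ^ 2 + (crs p N).2.2 ^ 2 := by
      unfold dot
      ring
    rw [h0] at hcon
    have h1 : (crs p N).1 = 0 := by
      have h : (crs p N).1 ^ 2 = 0 :=
        le_antisymm (by nlinarith [sq_nonneg (crs p N).2.1, sq_nonneg (crs p N).2.2])
          (sq_nonneg _)
      exact pow_eq_zero_iff two_ne_zero |>.mp h
    have h2 : (crs p N).2.1 = 0 := by
      have h : (crs p N).2.1 ^ 2 = 0 :=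
        le_antisymm (by nlinarith [sq_nonneg (crs p N).1, sq_nonneg (crs p N).2.2])
          (sq_nonneg _)
      exact pow_eq_zero_iff two_ne_zero |>.mp h
    have h3 : (crs p N).2.2 = 0 := by
      have h : (crs p N).2.2 ^ 2 = 0 :=
        le_antisymm (by nlinarith [sq_nonneg (crs p N).1, sq_nonneg (crs p N).2.1])
          (sq_nonneg _)
      exact pow_eq_zero_iff two_ne_zero |>.mp h
    have h4 : det3 p N (v c) = dot (crs p N) (v c) := by
      unfold det3 dot crs
      ring
    rw [h4]
    unfold dot
    rw [h1, h2, h3]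
    ring
  have hD : det3 p (v c) (v u) ≠ 0 := hp c u hcu.symm
  have hc0 : det3 p N (v c) ≠ 0 := hN c
  have hu0 : det3 p N (v u) ≠ 0 := hN u
  have hid := det_pencil p N (v c) (v u)
  have hdiff : det3 p (crs p N) (v u) / det3 p N (v u) - det3 p (crs p N) (v c) / det3 p N (v c) =
      dot (crs p N) (crs p N) * det3 p (v c) (v u) / (det3 p N (v c) * det3 p N (v u)) := by
    rw [← hid]
    field_simp
  have hlt : det3 p (crs p N) (v c) / det3 p N (v c) < det3 p (crs p N) (v u) / det3 p N (v u) ↔
      0 < dot (crs p N) (crs p N) * det3 p (v c) (v u) / (det3 p N (v c) * det3 p N (v u)) := by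
    rw [← hdiff]
    exact sub_pos.symm
  rw [hlt]
  have hdec : (decide (0 < det3 p N (v c)) = decide (0 < det3 p N (v u))) ↔
      0 < det3 p N (v c) * det3 p N (v u) := by
    rcases lt_or_gt_of_ne hc0 with h1 | h1 <;> rcases lt_or_gt_of_ne hu0 with h2 | h2
    · simp [not_lt.mpr h1.le, not_lt.mpr h2.le, mul_pos_of_neg_of_neg h1 h2]
    · simp [not_lt.mpr h1.le, h2, not_lt.mpr (mul_neg_of_neg_of_pos h1 h2).le]
    · simp [h1, not_lt.mpr h2.le, not_lt.mpr (mul_neg_of_pos_of_neg h1 h2).le]
    · simp [h1, h2, mul_pos h1 h2]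
  rw [hdec]
  have hZ : det3 p N (v c) * det3 p N (v u) ≠ 0 := mul_ne_zero hc0 hu0
  rcases lt_or_gt_of_ne hZ with hz | hz <;> rcases lt_or_gt_of_ne hD with hd | hd
  · have hq := div_pos_of_neg_of_neg (mul_neg_of_pos_of_neg hW hd) hz
    have a1 := not_lt.mpr hz.le
    have a2 := not_lt.mpr hd.le
    tauto
  · have hq := not_lt.mpr (div_neg_of_pos_of_neg (mul_pos hW hd) hz).le
    have a1 := not_lt.mpr hz.le
    tauto
  · have hq := not_lt.mpr (div_neg_of_neg_of_pos (mul_neg_of_pos_of_neg hW hd) hz).le
    have a2 := not_lt.mpr hd.le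
    tauto
  · have hq := div_pos (mul_pos hW hd) hz
    tauto

/-- [G9'] -/
theorem pencil_key_inj [Nonempty ι] {p N : V3} (hp : GenP v p) (hN : ∀ c, det3 p N (v c) ≠ 0) :
    Function.Injective fun c => det3 p (crs p N) (v c) / det3 p N (v c) := by
  intro c u hcu
  by_contra hne
  have hW : 0 < dot (crs p N) (crs p N) := by
    by_contra hcon
    apply hN c
    have h0 : dot (crs p N) (crs p N) =
        (crs p N).1 ^ 2 + (crs p N).2.1 ^ 2 + (crs p N).2.2 ^ 2 := by
      unfold dot
      ring
    rw [h0] at hcon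
    have h1 : (crs p N).1 = 0 := by
      have h : (crs p N).1 ^ 2 = 0 :=
        le_antisymm (by nlinarith [sq_nonneg (crs p N).2.1, sq_nonneg (crs p N).2.2])
          (sq_nonneg _)
      exact pow_eq_zero_iff two_ne_zero |>.mp h
    have h2 : (crs p N).2.1 = 0 := by
      have h : (crs p N).2.1 ^ 2 = 0 :=
        le_antisymm (by nlinarith [sq_nonneg (crs p N).1, sq_nonneg (crs p N).2.2])
          (sq_nonneg _)
      exact pow_eq_zero_iff two_ne_zero |>.mp h
    have h3 : (crs p N).2.2 = 0 := by
      have h : (crs p N).2.2 ^ 2 = 0 :=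
        le_antisymm (by nlinarith [sq_nonneg (crs p N).1, sq_nonneg (crs p N).2.1])
          (sq_nonneg _)
      exact pow_eq_zero_iff two_ne_zero |>.mp h
    have h4 : det3 p N (v c) = dot (crs p N) (v c) := by
      unfold det3 dot crs
      ring
    rw [h4]
    unfold dot
    rw [h1, h2, h3]
    ring
  have hD : det3 p (v c) (v u) ≠ 0 := hp c u hne
  have hc0 : det3 p N (v c) ≠ 0 := hN c
  have hu0 : det3 p N (v u) ≠ 0 := hN u
  have hid := det_pencil p N (v c) (v u)
  have hcu' : det3 p (crs p N) (v c) / det3 p N (v c) = det3 p (crs p N) (v u) / det3 p N (v u) :=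
    hcu
  rw [div_eq_div_iff hc0 hu0] at hcu'
  have h5 : dot (crs p N) (crs p N) * det3 p (v c) (v u) = 0 := by
    rw [← hid]
    linarith
  rcases mul_eq_zero.mp h5 with h6 | h6
  · exact hW.ne' h6
  · exact hD h6

/-- [G10] the number of halving circles through `p` is odd (G6, G8, G9) -/
theorem odd_halving (hc : Fintype.card ι = 2 * k + 1) (hk : 1 ≤ k) {p : V3} (hp : GenP v p) :
    Odd (univ.filter fun c => (posP v p c).card = k).card := by
  classical
  have h := Vale.Agent.P040.Sph28.odd_halving k hc (fun a b => det3 p (v a) (v b))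
    (fun a b => by unfold det3 dot crs; ring) (fun a b hab => hp a b hab)
    (fun a b c d => by unfold det3 dot crs; ring)
  have e : (univ.filter fun c => (posP v p c).card = k) =
      univ.filter fun u => (univ.filter fun w => 0 < det3 p (v u) (v w)).card = k := by
    apply filter_congr
    intro c _
    unfold posP
    constructor
    · intro h1
      rw [← h1]
    · intro h1
      rw [← h1]
  rw [e]
  exact h

end Vale.Agent.P040.Lab
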