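import Mathlib

/-!
# Abstract parity lemma (no geometry)
-/

namespace Vale.Agent.P040.Lab

open Finset

/-- [B] ABSTRACT PARITY LEMMA.  `X` = walls, `Y` = level vertices; every vertex `y` lies on the two
different walls `e₁ y`, `e₂ y`; every wall has exactly two end vertices; `tX`, `tY` = antipodes;
`sg` = an antipodal sign of the vertices; a wall is MARKED if exactly one of its two ends has `sg`.
If the number of marked walls is `2 mod 4`, some wall is connected to its antipode.
Proof.  Let `~` be the equivalence generated by `e₁ y ~ e₂ y`.  For a union `C` of classes,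
`∑_{x ∈ C} #{y end of x, sg y} = ∑_{y, sg y} #{x ∈ C : y end of x}` and the last number is `0` or `2`;
as `#{…} ∈ {0,1,2}`, the number of marked walls in `C` is even.  `tX` maps marked walls to marked
walls (`#{y end of tX x, sg y} = 2 - #{y end of x, sg y}` by `y ↦ tY y`) and classes to classes.  If no
`x ~ tX x`, choose `D` = union of classes with `X = D ⊔ tX D` (for instance with an injective index
`idx` on `X`, `μ x = min idx` over the class of `x`, `D = {x : μ x < μ (tX x)}`); then
`#marked = 2 #(marked in D) = 0 mod 4`.  (Alternative: strong induction on `#X`, removing a class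
and its antipode.) -/
theorem parity_abstract {α β : Type*} [DecidableEq α] [DecidableEq β] (X : Finset α) (Y : Finset β)
    (e₁ e₂ : β → α) (tX : α → α) (tY : β → β) (sg : β → Prop) [DecidablePred sg]
    (hX1 : ∀ y ∈ Y, e₁ y ∈ X) (hX2 : ∀ y ∈ Y, e₂ y ∈ X)
    (htXm : ∀ x ∈ X, tX x ∈ X) (htYm : ∀ y ∈ Y, tY y ∈ Y)
    (htX : ∀ x ∈ X, tX (tX x) = x) (htY : ∀ y ∈ Y, tY (tY y) = y)
    (h12 : ∀ y ∈ Y, e₁ y ≠ e₂ y)
    (hdeg : ∀ x ∈ X, (Y.filter fun y => e₁ y = x ∨ e₂ y = x).card = 2)
    (he₁ : ∀ y ∈ Y, e₁ (tY y) = tX (e₂ y)) (he₂ : ∀ y ∈ Y, e₂ (tY y) = tX (e₁ y))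
    (hsg : ∀ y ∈ Y, sg (tY y) ↔ ¬ sg y)
    (hmark : (X.filter fun x =>
      (Y.filter fun y => (e₁ y = x ∨ e₂ y = x) ∧ sg y).card = 1).card % 4 = 2) :
    ∃ x ∈ X, Relation.EqvGen (fun a b => ∃ y ∈ Y, e₁ y = a ∧ e₂ y = b) x (tX x) := by
  classical
  by_contra hcon
  push Not at hcon
  obtain ⟨R, hR⟩ : ∃ R : α → α → Prop, R = fun a b => ∃ y ∈ Y, e₁ y = a ∧ e₂ y = b := ⟨_, rfl⟩
  rw [← hR] at hcon
  have hRy : ∀ y ∈ Y, R (e₁ y) (e₂ y) := by
    intro y hy
    rw [hR]
    exact ⟨y, hy, rfl, rfl⟩
  -- a key that is constant exactly on the classes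
  obtain ⟨key, hkey⟩ : ∃ key : α → α, ∀ a b, key a = key b ↔ Relation.EqvGen R a b := by
    refine ⟨fun x => (Quotient.mk (Relation.EqvGen.setoid R) x).out, fun a b => ?_⟩
    constructor
    · intro h
      have h2 : Quotient.mk (Relation.EqvGen.setoid R) a = Quotient.mk (Relation.EqvGen.setoid R) b := by
        rw [← Quotient.out_eq (Quotient.mk (Relation.EqvGen.setoid R) a),
          ← Quotient.out_eq (Quotient.mk (Relation.EqvGen.setoid R) b)]
        exact congrArg _ h
      exact Quotient.exact h2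
    · intro h
      have h2 : Quotient.mk (Relation.EqvGen.setoid R) a = Quotient.mk (Relation.EqvGen.setoid R) b :=
        Quotient.sound h
      show (Quotient.mk (Relation.EqvGen.setoid R) a).out = (Quotient.mk (Relation.EqvGen.setoid R) b).out
      rw [h2]
  obtain ⟨lo, _⟩ := exists_wellFoundedLT α
  obtain ⟨lt, hlt_asymm, hlt_tri⟩ : ∃ lt : α → α → Prop, (∀ a b, lt a b → ¬ lt b a) ∧
      (∀ a b, a ≠ b → lt a b ∨ lt b a) :=
    ⟨lo.lt, fun a b h => lt_asymm h, fun a b h => lt_or_gt_of_ne h⟩
  obtain ⟨D, hD⟩ : ∃ D : Finset α, ∀ x, x ∈ D ↔ x ∈ X ∧ lt (key x) (key (tX x)) :=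
    ⟨X.filter fun x => lt (key x) (key (tX x)), fun x => mem_filter⟩
  obtain ⟨c, hc⟩ : ∃ c : α → ℕ, ∀ x, c x = (Y.filter fun y => (e₁ y = x ∨ e₂ y = x) ∧ sg y).card :=
    ⟨_, fun _ => rfl⟩
  simp only [← hc] at hmark
  -- D is a union of classes
  have hDclosed : ∀ y ∈ Y, (e₁ y ∈ D ↔ e₂ y ∈ D) := by
    intro y hy
    have k1 : key (e₁ y) = key (e₂ y) := (hkey _ _).2 (Relation.EqvGen.rel _ _ (hRy y hy))
    have k2 : key (tX (e₁ y)) = key (tX (e₂ y)) := by
      rw [← he₂ y hy, ← he₁ y hy]
      exact ((hkey _ _).2 (Relation.EqvGen.rel _ _ (hRy (tY y) (htYm y hy)))).symm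
    rw [hD, hD, k1, k2]
    constructor
    · intro h; exact ⟨hX2 y hy, h.2⟩
    · intro h; exact ⟨hX1 y hy, h.2⟩
  -- double counting
  have hy_even : ∀ y ∈ Y, Even (∑ x ∈ D, if (e₁ y = x ∨ e₂ y = x) ∧ sg y then 1 else 0) := by
    intro y hy
    by_cases hs : sg y
    · simp only [hs, and_true]
      rw [← card_filter]
      by_cases h1 : e₁ y ∈ D
      · have h2 := (hDclosed y hy).1 h1
        have h3 : D.filter (fun x => e₁ y = x ∨ e₂ y = x) = {e₁ y, e₂ y} := by
          ext x
          simp only [mem_filter, mem_insert, mem_singleton]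
          constructor
          · rintro ⟨_, h | h⟩
            · left; exact h.symm
            · right; exact h.symm
          · rintro (h | h)
            · rw [h]; exact ⟨h1, Or.inl rfl⟩
            · rw [h]; exact ⟨h2, Or.inr rfl⟩
        rw [h3, card_pair (h12 y hy)]
        exact even_two
      · have h2 : e₂ y ∉ D := fun h => h1 ((hDclosed y hy).2 h)
        have h3 : D.filter (fun x => e₁ y = x ∨ e₂ y = x) = ∅ := by
          apply filter_eq_empty_iff.2
          intro x hx h
          rcases h with h | h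
          · exact h1 (h ▸ hx)
          · exact h2 (h ▸ hx)
        rw [h3]
        simp
    · simp [hs]
  have hsum_even : Even (∑ x ∈ D, c x) := by
    have h1 : ∑ x ∈ D, c x = ∑ y ∈ Y, ∑ x ∈ D, if (e₁ y = x ∨ e₂ y = x) ∧ sg y then 1 else 0 := by
      rw [sum_comm]
      refine sum_congr rfl fun x _ => ?_
      rw [hc, card_filter]
    rw [h1]
    exact even_sum _ hy_even
  have hc2 : ∀ x ∈ X, c x ≤ 2 := by
    intro x hx
    rw [hc, ← hdeg x hx]
    apply card_le_card
    intro y hy
    simp only [mem_filter] at hy ⊢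
    exact ⟨hy.1, hy.2.1⟩
  have hDX : ∀ x ∈ D, x ∈ X := fun x hx => ((hD x).1 hx).1
  have hmD : Even (D.filter fun x => c x = 1).card := by
    rw [card_filter]
    have h1 : Even (∑ x ∈ D, ((if c x = 1 then 1 else 0) + c x)) := by
      apply even_sum
      intro x hx
      have := hc2 x (hDX x hx)
      rw [Nat.even_iff]
      split_ifs <;> omega
    rw [sum_add_distrib] at h1
    exact (Nat.even_add.1 h1).2 hsum_even
  -- antipode and marks
  have hanti : ∀ x ∈ X, c (tX x) + c x = 2 := by
    intro x hx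
    have h1 : c (tX x) = (Y.filter fun y => (e₁ y = x ∨ e₂ y = x) ∧ ¬ sg y).card := by
      rw [hc]
      symm
      apply card_bij (fun y _ => tY y)
      · intro y hy
        simp only [mem_filter] at hy ⊢
        obtain ⟨hyY, h, hs⟩ := hy
        refine ⟨htYm y hyY, ?_, (hsg y hyY).2 hs⟩
        rcases h with h | h
        · right; rw [he₂ y hyY, h]
        · left; rw [he₁ y hyY, h]
      · intro y hy y' hy' h
        simp only [mem_filter] at hy hy'
        rw [← htY y hy.1, ← htY y' hy'.1, h]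
      · intro z hz
        simp only [mem_filter] at hz
        obtain ⟨hzY, h, hs⟩ := hz
        refine ⟨tY z, ?_, htY z hzY⟩
        simp only [mem_filter]
        refine ⟨htYm z hzY, ?_, fun h' => (hsg z hzY).1 h' hs⟩
        rcases h with h | h
        · right; rw [he₂ z hzY, h, htX x hx]
        · left; rw [he₁ z hzY, h, htX x hx]
    have h2 := card_filter_add_card_filter_not (s := Y.filter fun y => e₁ y = x ∨ e₂ y = x)
      (fun y => sg y)
    rw [filter_filter, filter_filter, hdeg x hx] at h2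
    rw [h1, hc]
    omega
  -- count
  have hsplit := card_filter_add_card_filter_not (s := X.filter fun x => c x = 1)
    (fun x => x ∈ D)
  have hA : ((X.filter fun x => c x = 1).filter fun x => x ∈ D) = D.filter fun x => c x = 1 := by
    ext x
    simp only [mem_filter]
    constructor
    · rintro ⟨⟨_, h1⟩, h2⟩; exact ⟨h2, h1⟩
    · rintro ⟨h2, h1⟩; exact ⟨⟨hDX x h2, h1⟩, h2⟩
  have hB : ((X.filter fun x => c x = 1).filter fun x => ¬ x ∈ D).card
      = (D.filter fun x => c x = 1).card := by
    symm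
    apply card_bij (fun x _ => tX x)
    · intro x hx
      simp only [mem_filter] at hx ⊢
      obtain ⟨hxD, hx1⟩ := hx
      have hxX := hDX x hxD
      refine ⟨⟨htXm x hxX, ?_⟩, ?_⟩
      · have := hanti x hxX; omega
      · intro h
        have h1 := ((hD _).1 h).2
        rw [htX x hxX] at h1
        exact hlt_asymm _ _ h1 ((hD x).1 hxD).2
    · intro x hx x' hx' h
      simp only [mem_filter] at hx hx'
      rw [← htX x (hDX x hx.1), ← htX x' (hDX x' hx'.1), h]
    · intro z hz
      simp only [mem_filter] at hz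
      obtain ⟨⟨hzX, hz1⟩, hzD⟩ := hz
      refine ⟨tX z, ?_, htX z hzX⟩
      simp only [mem_filter]
      refine ⟨?_, ?_⟩
      · rw [hD]
        refine ⟨htXm z hzX, ?_⟩
        rw [htX z hzX]
        have hne : key z ≠ key (tX z) := fun h => hcon z hzX ((hkey _ _).1 h)
        rcases hlt_tri _ _ hne with h | h
        · exact absurd ((hD z).2 ⟨hzX, h⟩) hzD
        · exact h
      · have := hanti z hzX; omega
  rw [hA, hB] at hsplit
  obtain ⟨j, hj⟩ := hmD
  omega

end Vale.Agent.P040.Lab
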